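import Claimed.Prelude.Def_0370

/-!
# Row 213 (S0438, Villani's conjecture): basic definitions and the SOFT interface

Proof: msgs 8481-8486 (helper498), 8271-8276 (helper788).  Three layers:
* GEOMETRY (geodesic flow, Gauss lemma, Hopf-Rinow, ...),
* MIDDLE (branches of the cost, the quadratic form `H`, consequences of weak MTW),
* SOFT (this file states what SOFT needs; the files `Soft*.lean` deduce `MainConvexity`).

`Soft NF H` is a `Prop`-valued structure.  `NF x u` should be read "`u` is nonfocal at `x`" and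
`H x u e` is "the Hessian at `x`, in the direction `e`, of the branch of `d^2/2 (., exp_x u)`".
SOFT is parametric in `NF` and `H`; MIDDLE chooses them.
-/

set_option autoImplicit false
open Claims Claims.C0370 Claims.C0370.WeakMTWGlobalSupport
open scoped Manifold ContDiff Topology
open Set Filter Manifold Bundle

namespace Claimed.Agent.R213

noncomputable section

variable {n : ℕ} {M : Type*} [MetricSpace M] [ChartedSpace (WeakMTW.Model n) M]
  [IsManifold (WeakMTW.model n) ∞ M]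
  [RiemannianBundle (fun x : M => TangentSpace (WeakMTW.model n) x)]

/-- closed injectivity domain: velocities of minimising geodesics `[0,1] → M`. -/
def Ibar (x : M) : Set (TangentSpace (WeakMTW.model n) x) :=
  {v | dist x (WeakMTW.exp x v) = ‖v‖}

/-- minimising velocities from `x` to `y`. -/
def Vmin (x y : M) : Set (TangentSpace (WeakMTW.model n) x) :=
  {v | WeakMTW.exp x v = y ∧ ‖v‖ = dist x y}

/-- the cost `d^2/2`. -/
def cst (x y : M) : ℝ := dist x y ^ 2 / 2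

/-- a point of the tangent bundle. -/
abbrev mk (x : M) (v : TangentSpace (WeakMTW.model n) x) :
    TangentBundle (WeakMTW.model n) M := ⟨x, v⟩

/-- Local branch of the cost at `(x,u)`: `W x' y'` is the velocity at `x'`, close to `u`, of a
geodesic from `x'` to `y'`; `G x' y' = |W x' y'|^2/2`. -/
structure IsBranch (H : ∀ x : M, TangentSpace (WeakMTW.model n) x →
      TangentSpace (WeakMTW.model n) x → ℝ)
    (x : M) (u : TangentSpace (WeakMTW.model n) x)
    (W : ∀ x' : M, M → TangentSpace (WeakMTW.model n) x')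
    (U U₀ V : Set M) (N : Set (TangentBundle (WeakMTW.model n) M)) (C r : ℝ) : Prop where
  hU : IsOpen U
  hU₀ : IsOpen U₀
  hUU : U₀ ⊆ U
  hx : x ∈ U₀
  hV : IsOpen V
  hy : WeakMTW.exp x u ∈ V
  hN : N ∈ 𝓝 (mk x u)
  hr : 0 < r
  /-- `W` is a right inverse of `exp`. -/
  exp_W : ∀ x' ∈ U, ∀ y' ∈ V, WeakMTW.exp x' (W x' y') = y'
  /-- local uniqueness: velocities close to `(x,u)` are branch velocities. -/
  W_exp : ∀ p ∈ N, p.1 ∈ U₀ ∧ WeakMTW.exp p.1 p.2 ∈ V ∧ W p.1 (WeakMTW.exp p.1 p.2) = p.2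
  /-- `H` is 2-homogeneous at branch velocities (they are nonfocal). -/
  hom : ∀ x' ∈ U, ∀ y' ∈ V, ∀ (e : TangentSpace (WeakMTW.model n) x') (a : ℝ),
    H x' (W x' y') (a • e) = a ^ 2 * H x' (W x' y') e
  /-- uniform bound for `H` at branch velocities. -/
  bdd : ∀ x' ∈ U, ∀ y' ∈ V, ∀ e : TangentSpace (WeakMTW.model n) x',
    |H x' (W x' y') e| ≤ C * ‖e‖ ^ 2
  /-- continuity of the branch velocity. -/
  cont : ∀ x' ∈ U, ∀ y' ∈ V,
    ContinuousAt (fun q : M × M => mk q.1 (W q.1 q.2)) (x', y')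
  /-- second order Taylor expansion in normal coordinates at `x'`, uniformly. -/
  taylor : ∀ x' ∈ U₀, ∀ y' ∈ V, ∀ e : TangentSpace (WeakMTW.model n) x', ‖e‖ < r →
    WeakMTW.exp x' e ∈ U ∧
    |‖W (WeakMTW.exp x' e) y'‖ ^ 2 / 2 -
      (‖W x' y'‖ ^ 2 / 2 - inner ℝ (W x' y') e + H x' (W x' y') e / 2)| ≤ C * ‖e‖ ^ 3

/-- What the SOFT layer needs. -/
structure Soft (NF : ∀ x : M, TangentSpace (WeakMTW.model n) x → Prop)
    (H : ∀ x : M, TangentSpace (WeakMTW.model n) x →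
      TangentSpace (WeakMTW.model n) x → ℝ) : Prop where
  /-- `exp_x 0 = x`. -/
  exp_zero : ∀ x : M, WeakMTW.exp x (0 : TangentSpace (WeakMTW.model n) x) = x
  /-- Hopf-Rinow. -/
  hopf_rinow : ∀ x y : M, (Vmin (n := n) x y).Nonempty
  dist_exp_le : ∀ (x : M) (v : TangentSpace (WeakMTW.model n) x),
    dist x (WeakMTW.exp x v) ≤ ‖v‖
  /-- a minimising geodesic is minimising between any two of its points. -/
  ray : ∀ (x : M) (v : TangentSpace (WeakMTW.model n) x), v ∈ Ibar x →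
    ∀ r t : ℝ, 0 ≤ r → r ≤ t → t ≤ 1 →
      dist (WeakMTW.exp x (r • v)) (WeakMTW.exp x (t • v)) = (t - r) * ‖v‖
  /-- the tangent bundle is Hausdorff. -/
  t2 : T2Space (TangentBundle (WeakMTW.model n) M)
  /-- bounded sequences of tangent vectors over a convergent sequence of base points have
  convergent subsequences. -/
  cpt : ∀ (x : ℕ → M) (xl : M) (v : ∀ k, TangentSpace (WeakMTW.model n) (x k)) (R : ℝ),
    Tendsto x atTop (𝓝 xl) → (∀ k, ‖v k‖ ≤ R) →
    ∃ (vl : TangentSpace (WeakMTW.model n) xl) (φ : ℕ → ℕ), StrictMono φ ∧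
      Tendsto (fun k => mk (x (φ k)) (v (φ k))) atTop (𝓝 (mk xl vl))
  cont_exp : Continuous (fun p : TangentBundle (WeakMTW.model n) M => WeakMTW.exp p.1 p.2)
  cont_norm : Continuous (fun p : TangentBundle (WeakMTW.model n) M => ‖p.2‖)
  /-- continuity of linear combinations in the tangent bundle. -/
  lin : ∀ (x : ℕ → M) (xl : M) (v w : ∀ k, TangentSpace (WeakMTW.model n) (x k))
    (vl wl : TangentSpace (WeakMTW.model n) xl) (a b : ℕ → ℝ) (al bl : ℝ),
    Tendsto (fun k => mk (x k) (v k)) atTop (𝓝 (mk xl vl)) →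
    Tendsto (fun k => mk (x k) (w k)) atTop (𝓝 (mk xl wl)) →
    Tendsto a atTop (𝓝 al) → Tendsto b atTop (𝓝 bl) →
    Tendsto (fun k => mk (x k) (a k • v k + b k • w k)) atTop (𝓝 (mk xl (al • vl + bl • wl)))
  /-- continuity of the Riemannian metric. -/
  cont_inner : ∀ (x : ℕ → M) (xl : M) (v w : ∀ k, TangentSpace (WeakMTW.model n) (x k))
    (vl wl : TangentSpace (WeakMTW.model n) xl),
    Tendsto (fun k => mk (x k) (v k)) atTop (𝓝 (mk xl vl)) →
    Tendsto (fun k => mk (x k) (w k)) atTop (𝓝 (mk xl wl)) →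
    Tendsto (fun k => inner ℝ (v k) (w k)) atTop (𝓝 (inner ℝ vl wl))
  /-- velocity field of the geodesic `ε ↦ exp_x (ε e)`. -/
  vel : ∀ (x : M) (e : TangentSpace (WeakMTW.model n) x),
    ∃ E : ∀ ε : ℝ, TangentSpace (WeakMTW.model n) (WeakMTW.exp x (ε • e)),
      (∀ ε : ℝ, WeakMTW.exp (WeakMTW.exp x (ε • e)) ((-ε) • E ε) = x) ∧
      Tendsto (fun ε : ℝ => mk (WeakMTW.exp x (ε • e)) (E ε)) (𝓝 0) (𝓝 (mk x e))
  /-- uniform semiconcavity of the cost. -/
  semiconcave : ∃ C r : ℝ, 0 < r ∧ ∀ (x y : M) (v : TangentSpace (WeakMTW.model n) x),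
    v ∈ Vmin x y → ∀ e : TangentSpace (WeakMTW.model n) x, ‖e‖ < r →
      cst (WeakMTW.exp x e) y ≤ cst x y - inner ℝ v e + C * ‖e‖ ^ 2
  /-- no corner + uniqueness of geodesics. -/
  nocross : ∀ (x₁ x₂ : M) (v₁ : TangentSpace (WeakMTW.model n) x₁)
    (v₂ : TangentSpace (WeakMTW.model n) x₂) (r : ℝ), 0 < r → r < 1 →
    v₁ ∈ Ibar x₁ → v₂ ∈ Ibar x₂ → ‖v₁‖ = ‖v₂‖ →
    WeakMTW.exp x₁ (r • v₁) = WeakMTW.exp x₂ (r • v₂) →
    dist x₁ (WeakMTW.exp x₂ v₂) = ‖v₁‖ → mk x₁ v₁ = mk x₂ v₂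
  /-- nonfocal velocities have branches. -/
  branch : ∀ (x : M) (u : TangentSpace (WeakMTW.model n) x), NF x u →
    ∃ W U U₀ V N C r, IsBranch H x u W U U₀ V N C r
  /-- continuity of `H` on the nonfocal set. -/
  cont_H : ∀ (x : ℕ → M) (xl : M) (u e : ∀ k, TangentSpace (WeakMTW.model n) (x k))
    (ul el : TangentSpace (WeakMTW.model n) xl), NF xl ul →
    Tendsto (fun k => mk (x k) (u k)) atTop (𝓝 (mk xl ul)) →
    Tendsto (fun k => mk (x k) (e k)) atTop (𝓝 (mk xl el)) →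
    Tendsto (fun k => H (x k) (u k) (e k)) atTop (𝓝 (H xl ul el))
  /-- `H x u` is homogeneous of degree 2. -/
  hom_H : ∀ (x : M) (u e : TangentSpace (WeakMTW.model n) x) (a : ℝ), NF x u →
    H x u (a • e) = a ^ 2 * H x u e
  /-- interior of the injectivity domain is nonfocal. -/
  nf_of_mem : ∀ (x : M) (v : TangentSpace (WeakMTW.model n) x),
    v ∈ WeakMTW.injectivityDomain x → NF x v
  /-- (M): weak MTW = concavity of `H` along chords orthogonal to `e`. -/
  concave_H : ∀ (x : M) (a b e : TangentSpace (WeakMTW.model n) x),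
    (∀ l : ℝ, 0 ≤ l → l ≤ 1 → (1 - l) • a + l • b ∈ WeakMTW.injectivityDomain x) →
    inner ℝ e (b - a) = 0 → ∀ l : ℝ, 0 ≤ l → l ≤ 1 →
      (1 - l) * H x a e + l * H x b e ≤ H x ((1 - l) • a + l • b) e
  /-- (M'): radial margin. -/
  radial_H : ∀ (x : M) (p e : TangentSpace (WeakMTW.model n) x), p ∈ Ibar x →
    ∀ s t : ℝ, 0 ≤ s → s ≤ t → t < 1 → 0 < t →
      s / t * H x (t • p) e + (1 - s / t) * ‖e‖ ^ 2 ≤ H x (s • p) e
  /-- (FL): Focal Lemma. -/
  focal : ∀ (x : M) (a b : TangentSpace (WeakMTW.model n) x), NF x a → NF x b →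
    (∀ l : ℝ, 0 ≤ l → l ≤ 1 → (1 - l) • a + l • b ∈ Ibar x) →
    ∀ l : ℝ, 0 ≤ l → l ≤ 1 → NF x ((1 - l) • a + l • b)

end

end Claimed.Agent.R213
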