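import Claimed.Agent.R213.Basic

/-!
# Row 213: `SoftCore` = the interface `Soft` minus semiconcavity
-/

set_option autoImplicit false
open Claims Claims.C0370 Claims.C0370.WeakMTWGlobalSupport
open scoped Manifold ContDiff Topology
open Set Filter Manifold Bundle

namespace Claimed.Agent.R213

noncomputable section

variable {n : ℕ} {M : Type*} [MetricSpace M] [ChartedSpace (WeakMTW.Model n) M]
  [IsManifold (WeakMTW.model n) ∞ M]
  [RiemannianBundle (fun x : M => TangentSpace (WeakMTW.model n) x)]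

/-- `Soft` without the field `semiconcave` (which follows from the others, see `SoftSemi.lean`).
This is what MIDDLE + GEOMETRY have to provide. -/
structure SoftCore (NF : ∀ x : M, TangentSpace (WeakMTW.model n) x → Prop)
    (H : ∀ x : M, TangentSpace (WeakMTW.model n) x →
      TangentSpace (WeakMTW.model n) x → ℝ) : Prop where
  /-- `exp_x 0 = x`. -/
  exp_zero : ∀ x : M, WeakMTW.exp x (0 : TangentSpace (WeakMTW.model n) x) = x
  /-- Hopf-Rinow. -/
  hopf_rinow : ∀ x y : M, (Vmin (n := n) x y).Nonempty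
  dist_exp_le : ∀ (x : M) (v : TangentSpace (WeakMTW.model n) x),
    dist x (WeakMTW.exp x v) ≤ ‖v‖
  /-- a minimising geodesic is minimising between any two of its points. -/
  ray : ∀ (x : M) (v : TangentSpace (WeakMTW.model n) x), v ∈ Ibar x →
    ∀ r t : ℝ, 0 ≤ r → r ≤ t → t ≤ 1 →
      dist (WeakMTW.exp x (r • v)) (WeakMTW.exp x (t • v)) = (t - r) * ‖v‖
  /-- the tangent bundle is Hausdorff. -/
  t2 : T2Space (TangentBundle (WeakMTW.model n) M)
  /-- bounded sequences of tangent vectors over a convergent sequence of base points have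
  convergent subsequences. -/
  cpt : ∀ (x : ℕ → M) (xl : M) (v : ∀ k, TangentSpace (WeakMTW.model n) (x k)) (R : ℝ),
    Tendsto x atTop (𝓝 xl) → (∀ k, ‖v k‖ ≤ R) →
    ∃ (vl : TangentSpace (WeakMTW.model n) xl) (φ : ℕ → ℕ), StrictMono φ ∧
      Tendsto (fun k => mk (x (φ k)) (v (φ k))) atTop (𝓝 (mk xl vl))
  cont_exp : Continuous (fun p : TangentBundle (WeakMTW.model n) M => WeakMTW.exp p.1 p.2)
  cont_norm : Continuous (fun p : TangentBundle (WeakMTW.model n) M => ‖p.2‖)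
  /-- continuity of linear combinations in the tangent bundle. -/
  lin : ∀ (x : ℕ → M) (xl : M) (v w : ∀ k, TangentSpace (WeakMTW.model n) (x k))
    (vl wl : TangentSpace (WeakMTW.model n) xl) (a b : ℕ → ℝ) (al bl : ℝ),
    Tendsto (fun k => mk (x k) (v k)) atTop (𝓝 (mk xl vl)) →
    Tendsto (fun k => mk (x k) (w k)) atTop (𝓝 (mk xl wl)) →
    Tendsto a atTop (𝓝 al) → Tendsto b atTop (𝓝 bl) →
    Tendsto (fun k => mk (x k) (a k • v k + b k • w k)) atTop (𝓝 (mk xl (al • vl + bl • wl)))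
  /-- continuity of the Riemannian metric. -/
  cont_inner : ∀ (x : ℕ → M) (xl : M) (v w : ∀ k, TangentSpace (WeakMTW.model n) (x k))
    (vl wl : TangentSpace (WeakMTW.model n) xl),
    Tendsto (fun k => mk (x k) (v k)) atTop (𝓝 (mk xl vl)) →
    Tendsto (fun k => mk (x k) (w k)) atTop (𝓝 (mk xl wl)) →
    Tendsto (fun k => inner ℝ (v k) (w k)) atTop (𝓝 (inner ℝ vl wl))
  /-- velocity field of the geodesic `ε ↦ exp_x (ε e)`. -/
  vel : ∀ (x : M) (e : TangentSpace (WeakMTW.model n) x),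
    ∃ E : ∀ ε : ℝ, TangentSpace (WeakMTW.model n) (WeakMTW.exp x (ε • e)),
      (∀ ε : ℝ, WeakMTW.exp (WeakMTW.exp x (ε • e)) ((-ε) • E ε) = x) ∧
      Tendsto (fun ε : ℝ => mk (WeakMTW.exp x (ε • e)) (E ε)) (𝓝 0) (𝓝 (mk x e))
  /-- no corner + uniqueness of geodesics. -/
  nocross : ∀ (x₁ x₂ : M) (v₁ : TangentSpace (WeakMTW.model n) x₁)
    (v₂ : TangentSpace (WeakMTW.model n) x₂) (r : ℝ), 0 < r → r < 1 →
    v₁ ∈ Ibar x₁ → v₂ ∈ Ibar x₂ → ‖v₁‖ = ‖v₂‖ →
    WeakMTW.exp x₁ (r • v₁) = WeakMTW.exp x₂ (r • v₂) →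
    dist x₁ (WeakMTW.exp x₂ v₂) = ‖v₁‖ → mk x₁ v₁ = mk x₂ v₂
  /-- nonfocal velocities have branches. -/
  branch : ∀ (x : M) (u : TangentSpace (WeakMTW.model n) x), NF x u →
    ∃ W U U₀ V N C r, IsBranch H x u W U U₀ V N C r
  /-- continuity of `H` on the nonfocal set. -/
  cont_H : ∀ (x : ℕ → M) (xl : M) (u e : ∀ k, TangentSpace (WeakMTW.model n) (x k))
    (ul el : TangentSpace (WeakMTW.model n) xl), NF xl ul →
    Tendsto (fun k => mk (x k) (u k)) atTop (𝓝 (mk xl ul)) →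
    Tendsto (fun k => mk (x k) (e k)) atTop (𝓝 (mk xl el)) →
    Tendsto (fun k => H (x k) (u k) (e k)) atTop (𝓝 (H xl ul el))
  /-- `H x u` is homogeneous of degree 2. -/
  hom_H : ∀ (x : M) (u e : TangentSpace (WeakMTW.model n) x) (a : ℝ), NF x u →
    H x u (a • e) = a ^ 2 * H x u e
  /-- interior of the injectivity domain is nonfocal. -/
  nf_of_mem : ∀ (x : M) (v : TangentSpace (WeakMTW.model n) x),
    v ∈ WeakMTW.injectivityDomain x → NF x v
  /-- (M): weak MTW = concavity of `H` along chords orthogonal to `e`. -/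
  concave_H : ∀ (x : M) (a b e : TangentSpace (WeakMTW.model n) x),
    (∀ l : ℝ, 0 ≤ l → l ≤ 1 → (1 - l) • a + l • b ∈ WeakMTW.injectivityDomain x) →
    inner ℝ e (b - a) = 0 → ∀ l : ℝ, 0 ≤ l → l ≤ 1 →
      (1 - l) * H x a e + l * H x b e ≤ H x ((1 - l) • a + l • b) e
  /-- (M'): radial margin. -/
  radial_H : ∀ (x : M) (p e : TangentSpace (WeakMTW.model n) x), p ∈ Ibar x →
    ∀ s t : ℝ, 0 ≤ s → s ≤ t → t < 1 → 0 < t →
      s / t * H x (t • p) e + (1 - s / t) * ‖e‖ ^ 2 ≤ H x (s • p) e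
  /-- (FL): Focal Lemma. -/
  focal : ∀ (x : M) (a b : TangentSpace (WeakMTW.model n) x), NF x a → NF x b →
    (∀ l : ℝ, 0 ≤ l → l ≤ 1 → (1 - l) • a + l • b ∈ Ibar x) →
    ∀ l : ℝ, 0 ≤ l → l ≤ 1 → NF x ((1 - l) • a + l • b)

end

end Claimed.Agent.R213
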