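import Mathlib

/-!
# Row 213: abstract core of the Focal Lemma

Pure analysis in one real inner product space `E` (think `E = T_x M`, `I` = injectivity domain,
`H v e` = Hessian of the branch of the cost, `ρ v = -⟨R(v) k, k⟩` with `R = (H - μ)⁻¹`, which
extends smoothly through the focal velocity).  See msg 8486.
-/

set_option autoImplicit false
open scoped Topology
open Set Filter

namespace Claimed.Agent.R213

/-- A `C^2` function of one variable with a local minimum `0` at `0` is `O(t^2)`. -/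
theorem quad_bound_of_localMin {g : ℝ → ℝ} (hg : ContDiffAt ℝ 2 g 0) (h0 : g 0 = 0)
    (hpos : ∀ᶠ t in 𝓝 (0 : ℝ), 0 ≤ g t) :
    ∃ B : ℝ, 0 ≤ B ∧ ∀ᶠ t in 𝓝 (0 : ℝ), g t ≤ B * t ^ 2 := by
  have h1 : ContDiffAt ℝ 1 (deriv g) 0 := by
    have h2 : ContDiffAt ℝ 1 (fderiv ℝ g) 0 := hg.fderiv_right (m := 1) (by norm_num)
    have h3 : ContDiffAt ℝ 1 (fun x => fderiv ℝ g x 1) 0 := h2.clm_apply contDiffAt_const
    exact h3
  obtain ⟨K, t, ht, hK⟩ := h1.exists_lipschitzOnWith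
  have hd : ∀ᶠ y in 𝓝 (0 : ℝ), ContDiffAt ℝ 2 g y := hg.eventually (by simp)
  have hmin : IsLocalMin g 0 := by
    filter_upwards [hpos] with y hy
    rw [h0]; exact hy
  have hd0 : deriv g 0 = 0 := hmin.deriv_eq_zero
  obtain ⟨ε, hε, hball⟩ := Metric.eventually_nhds_iff_ball.1 (hd.and (eventually_mem_set.2 ht))
  refine ⟨K, K.2, ?_⟩
  filter_upwards [Metric.ball_mem_nhds (0 : ℝ) hε] with y hy
  have hy' : |y| < ε := by simpa [Real.norm_eq_abs] using hy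
  have hsub : ∀ z ∈ Metric.closedBall (0 : ℝ) |y|, z ∈ Metric.ball (0 : ℝ) ε := by
    intro z hz
    have : |z| ≤ |y| := by simpa [Real.norm_eq_abs] using hz
    simpa [Real.norm_eq_abs] using lt_of_le_of_lt this hy'
  have hb : ∀ z ∈ Metric.closedBall (0 : ℝ) |y|, ‖deriv g z‖ ≤ K * |y| := by
    intro z hz
    have hz' : |z| ≤ |y| := by simpa [Real.norm_eq_abs] using hz
    have h5 := hK.dist_le_mul z (hball z (hsub z hz)).2 0 (hball 0 (by simpa using hε)).2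
    rw [hd0] at h5
    have h6 : ‖deriv g z‖ ≤ K * |z| := by
      simpa [dist_eq_norm, Real.norm_eq_abs] using h5
    exact h6.trans (mul_le_mul_of_nonneg_left hz' K.2)
  have h7 := Convex.norm_image_sub_le_of_norm_deriv_le (f := g) (C := K * |y|)
    (s := Metric.closedBall (0 : ℝ) |y|) (x := 0) (y := y)
    (fun z hz => ((hball z (hsub z hz)).1).differentiableAt (by norm_num)) hb
    (convex_closedBall _ _) (by simp) (by simp [Real.norm_eq_abs])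
  rw [h0] at h7
  have h8 : g y ≤ K * |y| * |y| := by
    have := le_trans (le_abs_self (g y)) (by simpa [Real.norm_eq_abs] using h7)
    exact this
  calc g y ≤ K * |y| * |y| := h8
    _ = K * y ^ 2 := by rw [mul_assoc, ← sq, sq_abs]


variable {E : Type*} [NormedAddCommGroup E] [InnerProductSpace ℝ E]

/-- Passing to the limit `θ → 1` in the Cauchy-Schwarz inequality `(∗)`. -/
theorem focal_limit (I : Set E) (H : E → E → ℝ) (k w ξ : E) (ρ : E → ℝ) (μ θ₀ Kc : ℝ)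
    (hθ₀ : θ₀ < 1)
    (hI : ∀ θ : ℝ, θ₀ < θ → θ < 1 → θ • w ∈ I)
    (hcont : ContinuousAt ρ w)
    (hstar : ∀ᶠ v in 𝓝 w, v ∈ I →
      0 ≤ ρ v ∧ ∀ ξ : E, inner ℝ ξ k ^ 2 ≤ (μ * ‖ξ‖ ^ 2 - H v ξ) * ρ v)
    (hK : ∀ θ : ℝ, θ₀ < θ → 0 < θ → θ < 1 → μ * ‖ξ‖ ^ 2 - H (θ • w) ξ ≤ Kc) :
    0 ≤ ρ w ∧ inner ℝ ξ k ^ 2 ≤ Kc * ρ w := by
  have ht : Tendsto (fun θ : ℝ => θ • w) (𝓝[<] 1) (𝓝 w) := by
    have : Tendsto (fun θ : ℝ => θ • w) (𝓝 1) (𝓝 ((1 : ℝ) • w)) :=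
      (continuous_id.smul continuous_const).tendsto 1
    rw [one_smul] at this
    exact this.mono_left nhdsWithin_le_nhds
  have hρ : Tendsto (fun θ : ℝ => ρ (θ • w)) (𝓝[<] 1) (𝓝 (ρ w)) := hcont.tendsto.comp ht
  have e1 : ∀ᶠ θ : ℝ in 𝓝[<] 1, θ₀ < θ :=
    (lt_mem_nhds hθ₀).filter_mono nhdsWithin_le_nhds
  have e2 : ∀ᶠ θ : ℝ in 𝓝[<] 1, 0 < θ :=
    (lt_mem_nhds one_pos).filter_mono nhdsWithin_le_nhds
  have e3 : ∀ᶠ θ : ℝ in 𝓝[<] 1, θ < 1 := eventually_mem_nhdsWithin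
  have e4 := ht.eventually hstar
  constructor
  · refine ge_of_tendsto hρ ?_
    filter_upwards [e1, e3, e4] with θ h1 h3 h4
    exact (h4 (hI θ h1 h3)).1
  · refine ge_of_tendsto (hρ.const_mul Kc) ?_
    filter_upwards [e1, e2, e3, e4] with θ h1 h2 h3 h4
    obtain ⟨h5, h6⟩ := h4 (hI θ h1 h3)
    exact (h6 ξ).trans (mul_le_mul_of_nonneg_right (hK θ h1 h2 h3) h5)


/-- The hypotheses of the abstract Focal Lemma; `(1 - l₀) • a + l₀ • b` is the focal velocity,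
`k` spans a direction of the kernel of `d exp`. -/
structure FocalHyp (I : Set E) (H : E → E → ℝ) (a b k : E) (ρ : E → ℝ) (l₀ μ C₁ θ₀ : ℝ) :
    Prop where
  hl₀ : 0 < l₀
  hl₁ : l₀ < 1
  hθ₀ : θ₀ < 1
  hv : (1 - l₀) • a + l₀ • b ≠ 0
  hk : k ≠ 0
  /-- Gauss lemma. -/
  hkv : inner ℝ k ((1 - l₀) • a + l₀ • b) = 0
  hI : ∀ θ : ℝ, θ₀ < θ → θ < 1 → ∀ l : ℝ, 0 ≤ l → l ≤ 1 → θ • ((1 - l) • a + l • b) ∈ I
  /-- weak MTW. -/
  hconc : ∀ a' b' e : E, (∀ l : ℝ, 0 ≤ l → l ≤ 1 → (1 - l) • a' + l • b' ∈ I) →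
    inner ℝ e (b' - a') = 0 → ∀ l : ℝ, 0 ≤ l → l ≤ 1 →
    (1 - l) * H a' e + l * H b' e ≤ H ((1 - l) • a' + l • b') e
  /-- the ends of the chord are nonfocal. -/
  hends : ∀ θ : ℝ, θ₀ < θ → θ < 1 → ∀ e : E,
    -C₁ * ‖e‖ ^ 2 ≤ H (θ • a) e ∧ -C₁ * ‖e‖ ^ 2 ≤ H (θ • b) e
  /-- `H(v) v = v`. -/
  hrad : ∀ v ∈ I, ∀ e : E, inner ℝ e v = 0 → ∀ α : ℝ,
    H v (α • v + e) = α ^ 2 * ‖v‖ ^ 2 + H v e
  hH0 : ∀ v ∈ I, H v 0 = 0
  hρ : ContDiffAt ℝ 2 ρ ((1 - l₀) • a + l₀ • b)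
  hρ0 : ρ ((1 - l₀) • a + l₀ • b) = 0
  /-- Cauchy-Schwarz for `-(H - μ)⁻¹ > 0`. -/
  hstar : ∀ᶠ v in 𝓝 ((1 - l₀) • a + l₀ • b), v ∈ I →
    0 ≤ ρ v ∧ ∀ ξ : E, inner ℝ ξ k ^ 2 ≤ (μ * ‖ξ‖ ^ 2 - H v ξ) * ρ v

namespace FocalHyp

variable {I : Set E} {H : E → E → ℝ} {a b k : E} {ρ : E → ℝ} {l₀ μ C₁ θ₀ : ℝ}

/-- Step (i): `k` is orthogonal to everything orthogonal to the chord. -/
theorem step1 (h : FocalHyp I H a b k ρ l₀ μ C₁ θ₀) (ξ : E) (hξ : inner ℝ ξ (b - a) = 0) :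
    inner ℝ ξ k = 0 := by
  have key := focal_limit I H k ((1 - l₀) • a + l₀ • b) ξ ρ μ θ₀ ((μ + C₁) * ‖ξ‖ ^ 2) h.hθ₀
    (fun θ h1 h2 => h.hI θ h1 h2 l₀ h.hl₀.le h.hl₁.le) h.hρ.continuousAt h.hstar ?_
  · rw [h.hρ0, mul_zero] at key
    have := key.2
    have h2 : inner ℝ ξ k ^ 2 = 0 := le_antisymm this (sq_nonneg _)
    exact pow_eq_zero_iff (two_ne_zero) |>.1 h2
  · intro θ h1 h0 h2
    have hc := h.hconc (θ • a) (θ • b) ξ ?_ ?_ l₀ h.hl₀.le h.hl₁.le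
    · have e1 := (h.hends θ h1 h2 ξ).1
      have e2 := (h.hends θ h1 h2 ξ).2
      have e3 : (1 - l₀) • θ • a + l₀ • θ • b = θ • ((1 - l₀) • a + l₀ • b) := by
        rw [smul_add, smul_comm θ, smul_comm θ]
      rw [e3] at hc
      have e4 : (1 - l₀) * (-C₁ * ‖ξ‖ ^ 2) ≤ (1 - l₀) * H (θ • a) ξ :=
        mul_le_mul_of_nonneg_left e1 (by linarith [h.hl₁])
      have e5 : l₀ * (-C₁ * ‖ξ‖ ^ 2) ≤ l₀ * H (θ • b) ξ :=
        mul_le_mul_of_nonneg_left e2 h.hl₀.le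
      nlinarith
    · intro l hl0 hl1
      have e3 : (1 - l) • θ • a + l • θ • b = θ • ((1 - l) • a + l • b) := by
        rw [smul_add, smul_comm θ, smul_comm θ]
      rw [e3]
      exact h.hI θ h1 h2 l hl0 hl1
    · rw [← smul_sub, inner_smul_right, hξ, mul_zero]

theorem eta_ne (h : FocalHyp I H a b k ρ l₀ μ C₁ θ₀) : b - a ≠ 0 := by
  intro h0
  have := h.step1 k (by rw [h0, inner_zero_right])
  exact h.hk (inner_self_eq_zero.1 this)

theorem inner_eta_k_ne (h : FocalHyp I H a b k ρ l₀ μ C₁ θ₀) : inner ℝ (b - a) k ≠ 0 := by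
  intro h0
  have h1 := h.step1 k (by rw [real_inner_comm, h0])
  exact h.hk (inner_self_eq_zero.1 h1)

theorem inner_vb_eta (h : FocalHyp I H a b k ρ l₀ μ C₁ θ₀) :
    inner ℝ ((1 - l₀) • a + l₀ • b) (b - a) = 0 := by
  set vb := (1 - l₀) • a + l₀ • b with hvb
  set η := b - a with hη
  have h1 := h.step1 (‖η‖ ^ 2 • vb - inner ℝ vb η • η) (by
    rw [inner_sub_left, inner_smul_left, inner_smul_left, real_inner_self_eq_norm_sq]
    simp only [conj_trivial]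
    ring)
  rw [inner_sub_left, inner_smul_left, inner_smul_left, real_inner_comm k vb, h.hkv] at h1
  simp only [conj_trivial, mul_zero, zero_sub, neg_eq_zero, mul_eq_zero] at h1
  rcases h1 with h1 | h1
  · exact h1
  · exact absurd h1 h.inner_eta_k_ne

/-- Step (ii), the estimate at `v = θ (v̄ + τ η)`. -/
theorem step2_bound (h : FocalHyp I H a b k ρ l₀ μ C₁ θ₀) (vb η e' : E) (τ θ D Nn α : ℝ)
    (hvb : vb = (1 - l₀) • a + l₀ • b) (hη : η = b - a) (hD : D = ‖vb‖ ^ 2) (hN : Nn = ‖η‖ ^ 2)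
    (hα : α = D / (D + τ ^ 2 * Nn)) (he' : e' = vb - α • (vb + τ • η))
    (hτ0 : 0 < τ) (hτ1 : τ ≤ 1 - l₀) (h1 : θ₀ < θ) (h0 : 0 < θ) (h2 : θ < 1) :
    μ * ‖e'‖ ^ 2 - H (θ • (vb + τ • η)) e' ≤
      |μ| * (τ ^ 2 * Nn) + τ / (1 - l₀) * ((1 + |C₁|) * D) := by
  have hl : 0 < 1 - l₀ := by linarith [h.hl₁]
  have hDpos : 0 < D := by
    rw [hD]; exact pow_pos (norm_pos_iff.2 (hvb ▸ h.hv)) 2
  have hNnn : 0 ≤ Nn := by rw [hN]; positivity
  have hden : 0 < D + τ ^ 2 * Nn := by positivity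
  have horth : inner ℝ vb η = 0 := by rw [hvb, hη]; exact h.inner_vb_eta
  have hα0 : 0 < α := by rw [hα]; positivity
  have hα1 : α ≤ 1 := by
    rw [hα, div_le_one hden]; nlinarith [sq_nonneg τ]
  have hαden : α * (D + τ ^ 2 * Nn) = D := by rw [hα]; field_simp
  set w := vb + τ • η with hw
  have hvw : inner ℝ vb w = D := by
    rw [hw, inner_add_right, inner_smul_right, horth, real_inner_self_eq_norm_sq, hD]; ring
  have hww : ‖w‖ ^ 2 = D + τ ^ 2 * Nn := by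
    rw [hw, norm_add_sq_real, inner_smul_right, horth, norm_smul, mul_pow, Real.norm_eq_abs,
      sq_abs, hD, hN]
    ring
  -- norm of e'
  have hne : ‖e'‖ ^ 2 = (1 - α) * D := by
    rw [he', norm_sub_sq_real, inner_smul_right, hvw, norm_smul, mul_pow, Real.norm_eq_abs,
      sq_abs, hww, ← hD]
    have : α * (α * (D + τ ^ 2 * Nn)) = α * D := by rw [hαden]
    linarith
  have hne' : ‖e'‖ ^ 2 ≤ τ ^ 2 * Nn := by
    rw [hne]
    have : (1 - α) * D = α * (τ ^ 2 * Nn) := by linarith [hαden]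
    rw [this]
    have h3 : 0 ≤ τ ^ 2 * Nn := by positivity
    nlinarith
  -- membership
  have hmem : ∀ l : ℝ, 0 ≤ l → l ≤ 1 → (1 - l) • θ • vb + l • θ • b ∈ I := by
    intro l hl0 hl1
    have e3 : (1 - l) • θ • vb + l • θ • b =
        θ • ((1 - ((1 - l) * l₀ + l)) • a + ((1 - l) * l₀ + l) • b) := by
      rw [hvb]
      simp only [smul_add, smul_smul]
      rw [add_assoc, ← add_smul]
      congr 2 <;> ring
    rw [e3]
    refine h.hI θ h1 h2 _ ?_ ?_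
    · have := h.hl₀; nlinarith
    · have := h.hl₁; nlinarith
  have hbv : b - vb = (1 - l₀) • η := by
    rw [hvb, hη, smul_sub]
    have : b = (1 - l₀) • b + l₀ • b := by rw [← add_smul]; simp
    nth_rewrite 1 [this]
    abel
  have hc := h.hconc (θ • vb) (θ • b) vb hmem (by
    rw [← smul_sub, hbv, inner_smul_right, inner_smul_right, horth]; ring) (τ / (1 - l₀))
    (by positivity) (by rw [div_le_one hl]; exact hτ1)
  have e4 : (1 - τ / (1 - l₀)) • θ • vb + (τ / (1 - l₀)) • θ • b = θ • w := by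
    have : b = vb + (1 - l₀) • η := by rw [← hbv]; abel
    rw [this, hw]
    simp only [smul_add, smul_smul]
    rw [← add_assoc, ← add_smul]
    congr 2
    · ring
    · field_simp
  rw [e4] at hc
  have hθvb : θ • vb ∈ I := by
    have := hmem 0 le_rfl zero_le_one
    simpa using this
  have hθw : θ • w ∈ I := by
    rw [← e4]; exact hmem _ (by positivity) (by rw [div_le_one hl]; exact hτ1)
  -- value at τ = 0
  have hH1 : H (θ • vb) vb = D := by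
    have := h.hrad (θ • vb) hθvb 0 (inner_zero_left _) (1 / θ)
    rw [add_zero, smul_smul, one_div_mul_cancel h0.ne', one_smul, h.hH0 _ hθvb, norm_smul,
      Real.norm_eq_abs, abs_of_pos h0] at this
    rw [this, hD]; field_simp; ring
  -- decomposition at θ w
  have hH2 : H (θ • w) vb = α * D + H (θ • w) e' := by
    have horth' : inner ℝ e' (θ • w) = 0 := by
      rw [he', inner_smul_right, inner_sub_left, inner_smul_left, hvw,
        real_inner_self_eq_norm_sq, hww]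
      simp only [conj_trivial]
      rw [hαden]; ring
    have := h.hrad (θ • w) hθw e' horth' (α / θ)
    have e5 : (α / θ) • θ • w + e' = vb := by
      rw [smul_smul, div_mul_cancel₀ _ h0.ne', he']; abel
    rw [e5, norm_smul, Real.norm_eq_abs, abs_of_pos h0] at this
    rw [this]
    have : (α / θ) ^ 2 * (θ * ‖w‖) ^ 2 = α * (α * ‖w‖ ^ 2) := by field_simp
    rw [this, hww, hαden]
  have hend := (h.hends θ h1 h2 vb).2
  rw [← hD] at hend
  rw [hH1, hH2] at hc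
  set lam := τ / (1 - l₀) with hlam
  have hlam0 : 0 ≤ lam := by positivity
  have hC : -|C₁| * D ≤ H (θ • b) vb := by
    refine le_trans ?_ hend
    have := le_abs_self C₁
    nlinarith
  have h6 : lam * (-|C₁| * D) ≤ lam * H (θ • b) vb := mul_le_mul_of_nonneg_left hC hlam0
  have h7 : μ * ‖e'‖ ^ 2 ≤ |μ| * (τ ^ 2 * Nn) := by
    calc μ * ‖e'‖ ^ 2 ≤ |μ| * ‖e'‖ ^ 2 :=
          mul_le_mul_of_nonneg_right (le_abs_self μ) (by positivity)
      _ ≤ |μ| * (τ ^ 2 * Nn) := mul_le_mul_of_nonneg_left hne' (abs_nonneg μ)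
  have h8 : (α - 1) * D ≤ 0 := by nlinarith
  nlinarith

/-- **Abstract Focal Lemma**: the hypotheses are contradictory. -/
theorem false (h : FocalHyp I H a b k ρ l₀ μ C₁ θ₀) : False := by
  obtain ⟨vb, hvb⟩ : ∃ vb, vb = (1 - l₀) • a + l₀ • b := ⟨_, rfl⟩
  obtain ⟨η, hη⟩ : ∃ η, η = b - a := ⟨_, rfl⟩
  obtain ⟨D, hD⟩ : ∃ D, D = ‖vb‖ ^ 2 := ⟨_, rfl⟩
  obtain ⟨Nn, hN⟩ : ∃ Nn, Nn = ‖η‖ ^ 2 := ⟨_, rfl⟩
  have hl : 0 < 1 - l₀ := by linarith [h.hl₁]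
  have hDpos : 0 < D := by
    rw [hD]; exact pow_pos (norm_pos_iff.2 (hvb ▸ h.hv)) 2
  have hq : inner ℝ η k ≠ 0 := hη ▸ h.inner_eta_k_ne
  have hkv : inner ℝ vb k = 0 := by rw [real_inner_comm, hvb]; exact h.hkv
  have hchord : ∀ τ : ℝ, vb + τ • η = (1 - (l₀ + τ)) • a + (l₀ + τ) • b := by
    intro τ; rw [hvb, hη]; module
  have hρ := h.hρ
  have hρ0 := h.hρ0
  have hstar := h.hstar
  rw [← hvb] at hρ hρ0 hstar
  have hev : ∀ᶠ w in 𝓝 vb, (∀ᶠ v in 𝓝 w, v ∈ I →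
      0 ≤ ρ v ∧ ∀ ξ : E, inner ℝ ξ k ^ 2 ≤ (μ * ‖ξ‖ ^ 2 - H v ξ) * ρ v) ∧ ContinuousAt ρ w := by
    refine hstar.eventually_nhds.and ?_
    filter_upwards [hρ.eventually (by simp)] with w hw using hw.continuousAt
  have hline : Tendsto (fun τ : ℝ => vb + τ • η) (𝓝 0) (𝓝 vb) := by
    have : Tendsto (fun τ : ℝ => vb + τ • η) (𝓝 0) (𝓝 (vb + (0 : ℝ) • η)) :=
      (continuous_const.add (continuous_id.smul continuous_const)).tendsto 0
    simpa using this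
  have hev' := hline.eventually hev
  have hIτ : ∀ τ : ℝ, -l₀ ≤ τ → τ ≤ 1 - l₀ → ∀ θ : ℝ, θ₀ < θ → θ < 1 → θ • (vb + τ • η) ∈ I := by
    intro τ h1 h2 θ h3 h4
    rw [hchord]
    exact h.hI θ h3 h4 _ (by linarith) (by linarith)
  -- the function `g`
  have hg : ContDiffAt ℝ 2 (fun τ : ℝ => ρ (vb + τ • η)) 0 := by
    have h1 : ContDiffAt ℝ 2 (fun τ : ℝ => vb + τ • η) 0 :=
      contDiffAt_const.add (contDiffAt_id.smul contDiffAt_const)
    have h2 : ContDiffAt ℝ 2 ρ (vb + (0 : ℝ) • η) := by simpa using hρ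
    exact h2.comp (0 : ℝ) h1
  have hg0 : (fun τ : ℝ => ρ (vb + τ • η)) 0 = 0 := by simpa using hρ0
  have hgpos : ∀ᶠ τ in 𝓝 (0 : ℝ), 0 ≤ (fun τ : ℝ => ρ (vb + τ • η)) τ := by
    filter_upwards [hev', lt_mem_nhds (show -l₀ < 0 by linarith [h.hl₀]), gt_mem_nhds hl]
      with τ h1 h2 h3
    refine (focal_limit I H k (vb + τ • η) 0 ρ μ θ₀ 0 h.hθ₀ (hIτ τ h2.le h3.le) h1.2 h1.1 ?_).1
    intro θ h4 _ h5
    rw [h.hH0 _ (hIτ τ h2.le h3.le θ h4 h5)]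
    simp
  obtain ⟨B, hB0, hB⟩ := quad_bound_of_localMin hg hg0 hgpos
  -- the main inequality
  have hmain : ∀ᶠ τ in 𝓝[>] (0 : ℝ), (D / (D + τ ^ 2 * Nn)) ^ 2 * inner ℝ η k ^ 2 ≤
      (|μ| * (τ ^ 2 * Nn) + τ / (1 - l₀) * ((1 + |C₁|) * D)) * B := by
    filter_upwards [hev'.filter_mono nhdsWithin_le_nhds, hB.filter_mono nhdsWithin_le_nhds,
      (gt_mem_nhds hl).filter_mono nhdsWithin_le_nhds, eventually_mem_nhdsWithin]
      with τ h1 h2 h3 h4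
    have hτ0 : 0 < τ := h4
    have key := focal_limit I H k (vb + τ • η)
      (vb - (D / (D + τ ^ 2 * Nn)) • (vb + τ • η)) ρ μ θ₀
      (|μ| * (τ ^ 2 * Nn) + τ / (1 - l₀) * ((1 + |C₁|) * D)) h.hθ₀
      (hIτ τ (by linarith [h.hl₀]) h3.le) h1.2 h1.1
      (fun θ h5 h6 h7 => h.step2_bound vb η _ τ θ D Nn _ hvb hη hD hN rfl rfl hτ0 h3.le h5 h6 h7)
    have hKc : 0 ≤ |μ| * (τ ^ 2 * Nn) + τ / (1 - l₀) * ((1 + |C₁|) * D) := by
      have : 0 ≤ Nn := by rw [hN]; positivity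
      positivity
    have h5 := key.2.trans (mul_le_mul_of_nonneg_left h2 hKc)
    have h6 : inner ℝ (vb - (D / (D + τ ^ 2 * Nn)) • (vb + τ • η)) k =
        -(D / (D + τ ^ 2 * Nn)) * τ * inner ℝ η k := by
      rw [inner_sub_left, inner_smul_left, inner_add_left, inner_smul_left, hkv]
      simp only [conj_trivial]; ring
    rw [h6] at h5
    have h7 : τ ^ 2 * ((D / (D + τ ^ 2 * Nn)) ^ 2 * inner ℝ η k ^ 2) ≤
        τ ^ 2 * ((|μ| * (τ ^ 2 * Nn) + τ / (1 - l₀) * ((1 + |C₁|) * D)) * B) := by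
      nlinarith
    exact le_of_mul_le_mul_left h7 (by positivity)
  have hL : Tendsto (fun τ : ℝ => (D / (D + τ ^ 2 * Nn)) ^ 2 * inner ℝ η k ^ 2) (𝓝[>] 0)
      (𝓝 (inner ℝ η k ^ 2)) := by
    have : ContinuousAt (fun τ : ℝ => (D / (D + τ ^ 2 * Nn)) ^ 2 * inner ℝ η k ^ 2) 0 := by
      have hne : D + (0 : ℝ) ^ 2 * Nn ≠ 0 := by simpa using hDpos.ne'
      fun_prop (disch := exact hne)
    have h2 := this.tendsto
    simp only [ne_eq, OfNat.ofNat_ne_zero, not_false_eq_true, zero_pow, zero_mul, add_zero,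
      div_self hDpos.ne', one_pow, one_mul] at h2
    exact h2.mono_left nhdsWithin_le_nhds
  have hR : Tendsto (fun τ : ℝ => (|μ| * (τ ^ 2 * Nn) + τ / (1 - l₀) * ((1 + |C₁|) * D)) * B)
      (𝓝[>] 0) (𝓝 0) := by
    have : Continuous (fun τ : ℝ => (|μ| * (τ ^ 2 * Nn) + τ / (1 - l₀) * ((1 + |C₁|) * D)) * B) := by
      fun_prop
    have h2 := this.tendsto 0
    simp only [ne_eq, OfNat.ofNat_ne_zero, not_false_eq_true, zero_pow, zero_mul, mul_zero,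
      zero_div, add_zero] at h2
    exact h2.mono_left nhdsWithin_le_nhds
  have hfin := le_of_tendsto_of_tendsto hL hR hmain
  have : 0 < inner ℝ η k ^ 2 := by positivity
  linarith

end FocalHyp

end Claimed.Agent.R213
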