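import Claimed.Agent.R213.Basic

/-!
# Row 213 (S0438): pure bundle facts of the `Soft` interface

The five fields `t2`, `cpt`, `cont_norm`, `lin`, `cont_inner` of `structure Soft`
(`Claimed/Agent/R213/Basic.lean`), proved for the concrete tangent bundle.
-/

set_option autoImplicit false
set_option linter.unusedSectionVars false
open Claims Claims.C0370 Claims.C0370.WeakMTWGlobalSupport
open scoped Manifold ContDiff Topology
open Set Filter Manifold Bundle

namespace Claimed.Agent.R213

noncomputable section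

variable {n : ℕ} {M : Type*} [MetricSpace M] [ChartedSpace (WeakMTW.Model n) M]
  [IsManifold (WeakMTW.model n) ∞ M]
  [RiemannianBundle (fun x : M => TangentSpace (WeakMTW.model n) x)]

/-- The trivialization of the tangent bundle at `xl`. -/
abbrev tmTriv (xl : M) :
    Trivialization (WeakMTW.Model n) (π (WeakMTW.Model n) (TangentSpace (WeakMTW.model n) : M → Type _)) :=
  trivializationAt (WeakMTW.Model n) (TangentSpace (WeakMTW.model n)) xl

/-- Convergence in the tangent bundle, read in the trivialization at the limit base point. -/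
theorem tm_tendsto_iff {α : Type*} {l : Filter α} (x : α → M) (xl : M)
    (v : ∀ k, TangentSpace (WeakMTW.model n) (x k)) (vl : TangentSpace (WeakMTW.model n) xl) :
    Tendsto (fun k => mk (x k) (v k)) l (𝓝 (mk xl vl)) ↔
      Tendsto x l (𝓝 xl) ∧
        Tendsto (fun k => (tmTriv (n := n) xl (mk (x k) (v k))).2) l
          (𝓝 (tmTriv (n := n) xl (mk xl vl)).2) := by
  have hz : mk xl vl ∈ (tmTriv (n := n) xl).source := by
    rw [Trivialization.mem_source]
    exact FiberBundle.mem_baseSet_trivializationAt' xl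
  exact (tmTriv (n := n) xl).tendsto_nhds_iff hz

theorem tm_mem_baseSet (xl : M) : xl ∈ (tmTriv (n := n) xl).baseSet :=
  FiberBundle.mem_baseSet_trivializationAt' xl

/-- The trivialization is linear on the fibres over its base set. -/
theorem tm_triv_lin (xl : M) {y : M} (hy : y ∈ (tmTriv (n := n) xl).baseSet)
    (v w : TangentSpace (WeakMTW.model n) y) (a b : ℝ) :
    (tmTriv (n := n) xl (mk y (a • v + b • w))).2 =
      a • (tmTriv (n := n) xl (mk y v)).2 + b • (tmTriv (n := n) xl (mk y w)).2 := by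
  have h := (tmTriv (n := n) xl).linear ℝ hy
  have h1 := h.map_add (a • v) (b • w)
  have h2 := h.map_smul a v
  have h3 := h.map_smul b w
  rw [← h2, ← h3, ← h1]

theorem tm_lin : ∀ (x : ℕ → M) (xl : M) (v w : ∀ k, TangentSpace (WeakMTW.model n) (x k))
    (vl wl : TangentSpace (WeakMTW.model n) xl) (a b : ℕ → ℝ) (al bl : ℝ),
    Tendsto (fun k => mk (x k) (v k)) atTop (𝓝 (mk xl vl)) →
    Tendsto (fun k => mk (x k) (w k)) atTop (𝓝 (mk xl wl)) →
    Tendsto a atTop (𝓝 al) → Tendsto b atTop (𝓝 bl) →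
    Tendsto (fun k => mk (x k) (a k • v k + b k • w k)) atTop
      (𝓝 (mk xl (al • vl + bl • wl))) := by
  intro x xl v w vl wl a b al bl hv hw ha hb
  rw [tm_tendsto_iff] at hv hw ⊢
  refine ⟨hv.1, ?_⟩
  have hbase : ∀ᶠ k in atTop, x k ∈ (tmTriv (n := n) xl).baseSet :=
    hv.1 ((tmTriv (n := n) xl).open_baseSet.mem_nhds (tm_mem_baseSet xl))
  rw [tm_triv_lin xl (tm_mem_baseSet xl)]
  refine ((ha.smul hv.2).add (hb.smul hw.2)).congr' ?_
  filter_upwards [hbase] with k hk
  rw [tm_triv_lin xl hk]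

theorem tm_t2 : T2Space (TangentBundle (WeakMTW.model n) M) := by
  rw [t2_iff_nhds]
  rintro ⟨x, v⟩ ⟨y, w⟩ hne
  have hp : Tendsto (fun z : TangentBundle (WeakMTW.model n) M => mk z.1 z.2)
      (𝓝 (mk x v) ⊓ 𝓝 (mk y w)) (𝓝 (mk x v)) := inf_le_left
  have hq : Tendsto (fun z : TangentBundle (WeakMTW.model n) M => mk z.1 z.2)
      (𝓝 (mk x v) ⊓ 𝓝 (mk y w)) (𝓝 (mk y w)) := inf_le_right
  rw [tm_tendsto_iff] at hp hq
  have hxy : x = y := tendsto_nhds_unique hp.1 hq.1
  subst hxy
  have hvw := tendsto_nhds_unique hp.2 hq.2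
  have h1 := (tmTriv (n := n) x).symm_apply_apply_mk (tm_mem_baseSet x) v
  have h2 := (tmTriv (n := n) x).symm_apply_apply_mk (tm_mem_baseSet x) w
  have : v = w := by
    rw [← h1, ← h2]
    exact congrArg _ hvw
  rw [this]

section Riem

variable [IsContMDiffRiemannianBundle (WeakMTW.model n) ∞ (WeakMTW.Model n)
      (fun x : M => TangentSpace (WeakMTW.model n) x)]

/-- The smooth Riemannian bundle is in particular a continuous one. -/
theorem tm_isContinuousRiemannianBundle :
    IsContinuousRiemannianBundle (WeakMTW.Model n)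
      (fun x : M => TangentSpace (WeakMTW.model n) x) := by
  obtain ⟨g, hg, hg'⟩ := IsContMDiffRiemannianBundle.exists_contMDiff
    (IB := WeakMTW.model n) (n := ∞) (F := WeakMTW.Model n)
    (E := fun x : M => TangentSpace (WeakMTW.model n) x)
  exact ⟨g, hg.continuous, hg'⟩

theorem tm_cont_norm :
    Continuous (fun p : TangentBundle (WeakMTW.model n) M => ‖p.2‖) := by
  have := tm_isContinuousRiemannianBundle (n := n) (M := M)
  have h : Continuous (fun p : TangentBundle (WeakMTW.model n) M => inner ℝ p.2 p.2) := by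
    apply Continuous.inner_bundle (F := WeakMTW.Model n)
      (E := fun x : M => TangentSpace (WeakMTW.model n) x)
      (b := fun p : TangentBundle (WeakMTW.model n) M => p.1)
      (v := fun p => p.2) (w := fun p => p.2)
    · exact continuous_id
    · exact continuous_id
  have h2 : (fun p : TangentBundle (WeakMTW.model n) M => ‖p.2‖) =
      fun p => Real.sqrt (inner ℝ p.2 p.2) := by
    funext p
    rw [real_inner_self_eq_norm_sq, Real.sqrt_sq (norm_nonneg _)]
  rw [h2]
  exact h.sqrt

theorem tm_cont_inner : ∀ (x : ℕ → M) (xl : M) (v w : ∀ k, TangentSpace (WeakMTW.model n) (x k))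
    (vl wl : TangentSpace (WeakMTW.model n) xl),
    Tendsto (fun k => mk (x k) (v k)) atTop (𝓝 (mk xl vl)) →
    Tendsto (fun k => mk (x k) (w k)) atTop (𝓝 (mk xl wl)) →
    Tendsto (fun k => inner ℝ (v k) (w k)) atTop (𝓝 (inner ℝ vl wl)) := by
  intro x xl v w vl wl hv hw
  have hp := tm_lin x xl v w vl wl (fun _ => 1) (fun _ => 1) 1 1 hv hw
    tendsto_const_nhds tendsto_const_nhds
  have hm := tm_lin x xl v w vl wl (fun _ => 1) (fun _ => -1) 1 (-1) hv hw
    tendsto_const_nhds tendsto_const_nhds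
  have hp' := (tm_cont_norm (n := n) (M := M)).continuousAt.tendsto.comp hp
  have hm' := (tm_cont_norm (n := n) (M := M)).continuousAt.tendsto.comp hm
  have key : ∀ (y : M) (a b : TangentSpace (WeakMTW.model n) y),
      inner ℝ a b = (‖(1:ℝ) • a + (1:ℝ) • b‖ ^ 2 - ‖(1:ℝ) • a + (-1:ℝ) • b‖ ^ 2) / 4 := by
    intro y a b
    rw [one_smul, one_smul, neg_smul, one_smul, ← sub_eq_add_neg,
      norm_add_sq_real, norm_sub_sq_real]
    ring
  rw [key xl vl wl]
  simp only [key]
  exact ((hp'.pow 2).sub (hm'.pow 2)).div_const 4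

theorem tm_cpt : ∀ (x : ℕ → M) (xl : M) (v : ∀ k, TangentSpace (WeakMTW.model n) (x k)) (R : ℝ),
    Tendsto x atTop (𝓝 xl) → (∀ k, ‖v k‖ ≤ R) →
    ∃ (vl : TangentSpace (WeakMTW.model n) xl) (φ : ℕ → ℕ), StrictMono φ ∧
      Tendsto (fun k => mk (x (φ k)) (v (φ k))) atTop (𝓝 (mk xl vl)) := by
  intro x xl v R hx hv
  have := tm_isContinuousRiemannianBundle (n := n) (M := M)
  obtain ⟨C, hC, hev⟩ := eventually_norm_trivializationAt_lt (WeakMTW.Model n)
    (fun x : M => TangentSpace (WeakMTW.model n) x) xl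
  have hbase : ∀ᶠ k in atTop, x k ∈ (tmTriv (n := n) xl).baseSet :=
    hx ((tmTriv (n := n) xl).open_baseSet.mem_nhds (tm_mem_baseSet xl))
  have hbd : ∀ᶠ k in atTop,
      (tmTriv (n := n) xl (mk (x k) (v k))).2 ∈ Metric.closedBall (0 : WeakMTW.Model n) (C * R) := by
    filter_upwards [hbase, hx.eventually hev] with k hk hCk
    rw [mem_closedBall_zero_iff]
    have h1 : (tmTriv (n := n) xl (mk (x k) (v k))).2 =
        (tmTriv (n := n) xl).continuousLinearMapAt ℝ (x k) (v k) := by
      rw [Trivialization.continuousLinearMapAt_apply, Trivialization.coe_linearMapAt_of_mem _ hk]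
    rw [h1]
    calc ‖(tmTriv (n := n) xl).continuousLinearMapAt ℝ (x k) (v k)‖
        ≤ ‖(tmTriv (n := n) xl).continuousLinearMapAt ℝ (x k)‖ * ‖v k‖ :=
          ContinuousLinearMap.le_opNorm _ _
      _ ≤ C * R := mul_le_mul hCk.le (hv k) (norm_nonneg _) hC.le
  obtain ⟨a, -, φ, hφ, hlim⟩ := tendsto_subseq_of_frequently_bounded
    (Metric.isBounded_closedBall (x := (0 : WeakMTW.Model n)) (r := C * R)) hbd.frequently
  refine ⟨(tmTriv (n := n) xl).symm xl a, φ, hφ, ?_⟩
  rw [tm_tendsto_iff]
  refine ⟨hx.comp hφ.tendsto_atTop, ?_⟩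
  have h2 : (tmTriv (n := n) xl (mk xl ((tmTriv (n := n) xl).symm xl a))).2 = a := by
    have := (tmTriv (n := n) xl).apply_mk_symm (tm_mem_baseSet xl) a
    exact congrArg Prod.snd this
  rw [h2]
  exact hlim

end Riem

section Check

variable [IsContMDiffRiemannianBundle (WeakMTW.model n) ∞ (WeakMTW.Model n)
      (fun x : M => TangentSpace (WeakMTW.model n) x)]

/-- Sanity check: the five theorems have exactly the types of the fields of `Soft`. -/
example (NF : ∀ x : M, TangentSpace (WeakMTW.model n) x → Prop)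
    (H : ∀ x : M, TangentSpace (WeakMTW.model n) x → TangentSpace (WeakMTW.model n) x → ℝ)
    (hS : Soft NF H) : Soft NF H :=
  { hS with
    t2 := tm_t2
    cpt := tm_cpt
    cont_norm := tm_cont_norm
    lin := tm_lin
    cont_inner := tm_cont_inner }

end Check

end

end Claimed.Agent.R213
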