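import Claimed.Agent.R213.FocalCore

/-!
# Row 213: abstract resolvent extension through a focal velocity

`E = T_x M`, `F` = chart at the end point.  `B v = d_v exp_x`, `N v` = derivative of the end point
with respect to the base point (in normal coordinates and momentum variables), so that
`N v = B v ∘ H♯ v` on nonfocal velocities.  `(H - μ)⁻¹ = (N - μ B)⁻¹ B` extends smoothly through a
focal velocity `vb` in the closure of `I`, because `[N B]` is onto and `H ≤ C < μ` on `I`.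
-/

set_option autoImplicit false
set_option linter.unusedSectionVars false
open scoped Topology
open Set Filter

namespace Claimed.Agent.R213

variable {E F : Type*} [NormedAddCommGroup E] [InnerProductSpace ℝ E] [FiniteDimensional ℝ E]
  [NormedAddCommGroup F] [NormedSpace ℝ F] [FiniteDimensional ℝ F]

/-- pointwise relation "`N = B ∘ H♯`, `H♯` symmetric, `B` injective" -/
def ResRel (Bv Nv : E →L[ℝ] F) (Hv : E → ℝ) : Prop :=
  Function.Injective Bv ∧ ∃ b : E →L[ℝ] E →L[ℝ] ℝ, (∀ e e', b e e' = b e' e) ∧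
    (∀ e, Hv e = b e e) ∧ ∀ e, ∃ w, Nv e = Bv w ∧ ∀ e', inner ℝ w e' = b e e'

/-- Operator form of `ResRel`. -/
theorem ResRel.exists_op {Bv Nv : E →L[ℝ] F} {Hv : E → ℝ} (h : ResRel Bv Nv Hv) :
    ∃ A : E →L[ℝ] E, (∀ e e', inner ℝ (A e) e' = inner ℝ e (A e')) ∧
      (∀ e, Hv e = inner ℝ (A e) e) ∧ ∀ e, Nv e = Bv (A e) := by
  obtain ⟨-, b, hsym, hH, hN⟩ := h
  have : CompleteSpace E := FiniteDimensional.complete ℝ E
  let A₀ : E →ₗ[ℝ] E :=
    { toFun := fun e => (InnerProductSpace.toDual ℝ E).symm (b e)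
      map_add' := fun e e' => by rw [map_add, map_add]
      map_smul' := fun c e => by
        rw [map_smul, LinearIsometryEquiv.map_smulₛₗ]; simp }
  let A : E →L[ℝ] E := LinearMap.toContinuousLinearMap A₀
  have hA : ∀ e e', inner ℝ (A e) e' = b e e' := by
    intro e e'
    exact InnerProductSpace.toDual_symm_apply
  refine ⟨A, ?_, ?_, ?_⟩
  · intro e e'
    rw [hA, real_inner_comm, hA, hsym]
  · intro e; rw [hA, hH]
  · intro e
    obtain ⟨w, hw1, hw2⟩ := hN e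
    have : w = A e := by
      apply ext_inner_right ℝ
      intro e'
      rw [hw2, hA]
    rw [hw1, this]

/-- Cauchy-Schwarz for the positive form `μ - A`. -/
theorem res_cauchy (A : E →L[ℝ] E) (hsym : ∀ e e', inner ℝ (A e) e' = inner ℝ e (A e'))
    (C μ : ℝ) (hC : ∀ e, inner ℝ (A e) e ≤ C * ‖e‖ ^ 2) (hμ : C < μ) (z k : E)
    (hz : A z - μ • z = k) :
    (μ - C) * ‖z‖ ^ 2 ≤ -inner ℝ z k ∧
      ∀ ξ : E, inner ℝ ξ k ^ 2 ≤ (μ * ‖ξ‖ ^ 2 - inner ℝ (A ξ) ξ) * (-inner ℝ z k) := by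
  have hzk : -inner ℝ z k = μ * ‖z‖ ^ 2 - inner ℝ (A z) z := by
    rw [← hz, inner_sub_right, inner_smul_right, real_inner_self_eq_norm_sq,
      real_inner_comm z (A z)]
    ring
  have h1 : (μ - C) * ‖z‖ ^ 2 ≤ -inner ℝ z k := by
    rw [hzk]; nlinarith [hC z]
  refine ⟨h1, fun ξ => ?_⟩
  -- Q(e) = μ|e|^2 - <Ae,e> ≥ 0
  have hQ : ∀ e : E, 0 ≤ μ * ‖e‖ ^ 2 - inner ℝ (A e) e := by
    intro e
    have := hC e
    have h2 : 0 ≤ (μ - C) * ‖e‖ ^ 2 := mul_nonneg (by linarith) (by positivity)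
    nlinarith
  set a := μ * ‖ξ‖ ^ 2 - inner ℝ (A ξ) ξ with ha
  set c := -inner ℝ z k with hc
  set b := inner ℝ ξ k with hb
  have hbz : b = -(μ * inner ℝ ξ z - inner ℝ (A ξ) z) := by
    rw [hb, ← hz, inner_sub_right, inner_smul_right, hsym]; ring
  have hexp : ∀ t : ℝ, μ * ‖ξ + t • z‖ ^ 2 - inner ℝ (A (ξ + t • z)) (ξ + t • z) =
      a - 2 * t * b + t ^ 2 * c := by
    intro t
    rw [norm_add_sq_real, map_add, map_smul, norm_smul, mul_pow,
      Real.norm_eq_abs, sq_abs, hzk, ha, hbz]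
    simp only [inner_add_left, inner_add_right, inner_smul_left, inner_smul_right, conj_trivial]
    rw [hsym z ξ, real_inner_comm (A ξ) z]
    ring
  have hc0 : 0 ≤ c := le_trans (mul_nonneg (by linarith) (by positivity)) h1
  rcases hc0.eq_or_lt with hc' | hc'
  · -- c = 0 : z = 0
    have hz0 : ‖z‖ ^ 2 = 0 := by
      have h3 : (μ - C) * ‖z‖ ^ 2 ≤ 0 := by rw [hc']; exact h1
      have h4 : 0 ≤ ‖z‖ ^ 2 := by positivity
      have h5 : 0 < μ - C := by linarith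
      nlinarith
    have hz1 : z = 0 := by
      have := pow_eq_zero_iff (two_ne_zero) |>.1 hz0
      exact norm_eq_zero.1 this
    have hk0 : k = 0 := by rw [← hz, hz1]; simp
    have : b = 0 := by rw [hb, hk0, inner_zero_right]
    rw [this, ← hc']; simp
  · have h6 := hQ (ξ + (b / c) • z)
    rw [hexp] at h6
    have h7 : a - 2 * (b / c) * b + (b / c) ^ 2 * c = a - b ^ 2 / c := by
      field_simp; ring
    rw [h7] at h6
    have h8 : b ^ 2 / c ≤ a := by linarith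
    rwa [div_le_iff₀ hc'] at h8

/-- `A - μ` is onto, with a bound for the solution. -/
theorem res_solve (A : E →L[ℝ] E) (hsym : ∀ e e', inner ℝ (A e) e' = inner ℝ e (A e'))
    (C μ : ℝ) (hC : ∀ e, inner ℝ (A e) e ≤ C * ‖e‖ ^ 2) (hμ : C < μ) (k : E) :
    ∃ z : E, A z - μ • z = k ∧ (μ - C) * ‖z‖ ≤ ‖k‖ := by
  have hpos : 0 < μ - C := by linarith
  have hbound : ∀ z k : E, A z - μ • z = k → (μ - C) * ‖z‖ ≤ ‖k‖ := by
    intro z k hz
    have h1 := (res_cauchy A hsym C μ hC hμ z k hz).1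
    have h2 : -inner ℝ z k ≤ ‖z‖ * ‖k‖ := by
      have := abs_real_inner_le_norm z k
      exact le_trans (neg_le_abs _) this
    rcases (norm_nonneg z).eq_or_lt with h0 | h0
    · rw [← h0]; simp
    · have h3 : ‖z‖ * ((μ - C) * ‖z‖) ≤ ‖z‖ * ‖k‖ := by nlinarith
      exact le_of_mul_le_mul_left h3 h0
  let T : E →ₗ[ℝ] E := (A : E →ₗ[ℝ] E) - μ • LinearMap.id
  have hT : ∀ z, T z = A z - μ • z := fun z => rfl
  have hinj : Function.Injective T := by
    rw [injective_iff_map_eq_zero]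
    intro z hz
    have := hbound z 0 (by rw [← hT, hz])
    rw [norm_zero] at this
    have h4 : ‖z‖ ≤ 0 := by
      by_contra hcon
      push Not at hcon
      have := mul_pos hpos hcon
      linarith
    exact norm_le_zero_iff.1 h4
  obtain ⟨z, hz⟩ := (LinearMap.injective_iff_surjective.1 hinj) k
  exact ⟨z, by rw [← hT, hz], hbound z k (by rw [← hT, hz])⟩

/-- `N - μ B` is onto at `vb`. -/
theorem res_surj (I : Set E) (H : E → E → ℝ) (B N : E → E →L[ℝ] F) (vb : E) (C μ : ℝ)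
    (hB : ContinuousAt B vb) (hN : ContinuousAt N vb)
    (hrel : ∀ᶠ v in 𝓝 vb, v ∈ I → ResRel (B v) (N v) (H v))
    (hC : ∀ᶠ v in 𝓝 vb, v ∈ I → ∀ e, H v e ≤ C * ‖e‖ ^ 2) (hμ : C < μ)
    (honto : ∀ f : F, ∃ e e' : E, N vb e + B vb e' = f)
    (hcl : vb ∈ closure I) : Function.Surjective (N vb - μ • B vb) := by
  have hpos : 0 < μ - C := by linarith
  by_contra hns
  have hlt : LinearMap.range ((N vb - μ • B vb : E →L[ℝ] F) : E →ₗ[ℝ] F) < ⊤ := by
    rw [lt_top_iff_ne_top]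
    intro h
    exact hns (LinearMap.range_eq_top.1 h)
  obtain ⟨φ, hφ0, hφ⟩ := Submodule.exists_le_ker_of_lt_top _ hlt
  let φc : F →L[ℝ] ℝ := LinearMap.toContinuousLinearMap φ
  have hφc : ∀ f, φc f = φ f := fun f => rfl
  have hker : ∀ e, φc ((N vb - μ • B vb) e) = 0 := by
    intro e
    have : ((N vb - μ • B vb : E →L[ℝ] F) : E →ₗ[ℝ] F) e ∈ LinearMap.ker φ :=
      hφ (LinearMap.mem_range_self _ e)
    exact this
  have hne : (𝓝[I] vb).NeBot := mem_closure_iff_nhdsWithin_neBot.1 hcl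
  have hBφ : ∀ b₀ : E, φc (B vb b₀) = 0 := by
    intro b₀
    have hT1 : Tendsto (fun v => φc.comp (N v - μ • B v)) (𝓝[I] vb)
        (𝓝 (φc.comp (N vb - μ • B vb))) := by
      have : ContinuousAt (fun v => φc.comp (N v - μ • B v)) vb := by
        have h1 : ContinuousAt (fun v => N v - μ • B v) vb := hN.sub (hB.const_smul μ)
        exact (ContinuousLinearMap.compL ℝ E F ℝ φc).continuous.continuousAt.comp h1
      exact this.tendsto.mono_left nhdsWithin_le_nhds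
    have hzero : φc.comp (N vb - μ • B vb) = 0 := by
      ext e; exact hker e
    rw [hzero] at hT1
    have hT2 : Tendsto (fun v => ‖φc.comp (N v - μ • B v)‖ * (‖b₀‖ / (μ - C))) (𝓝[I] vb)
        (𝓝 0) := by
      have := hT1.norm.mul_const (‖b₀‖ / (μ - C))
      simpa using this
    have hT3 : Tendsto (fun v => |φc (B v b₀)|) (𝓝[I] vb) (𝓝 |φc (B vb b₀)|) := by
      have : ContinuousAt (fun v => |φc (B v b₀)|) vb := by
        have h1 : ContinuousAt (fun v => B v b₀) vb :=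
          hB.clm_apply continuousAt_const
        exact (φc.continuous.continuousAt.comp h1).abs
      exact this.tendsto.mono_left nhdsWithin_le_nhds
    have hle : ∀ᶠ v in 𝓝[I] vb, |φc (B v b₀)| ≤ ‖φc.comp (N v - μ • B v)‖ * (‖b₀‖ / (μ - C)) := by
      filter_upwards [hrel.filter_mono nhdsWithin_le_nhds, hC.filter_mono nhdsWithin_le_nhds,
        self_mem_nhdsWithin] with v h1 h2 h3
      obtain ⟨A, hsym, hH, hNA⟩ := (h1 h3).exists_op
      obtain ⟨z, hz, hzb⟩ := res_solve A hsym C μ (fun e => by rw [← hH]; exact h2 h3 e) hμ b₀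
      have e1 : B v b₀ = (N v - μ • B v) z := by
        rw [← hz, map_sub, map_smul, sub_apply, smul_apply,
          hNA]
      rw [e1]
      have e2 : |φc ((N v - μ • B v) z)| ≤ ‖φc.comp (N v - μ • B v)‖ * ‖z‖ := by
        have := (φc.comp (N v - μ • B v)).le_opNorm z
        simpa [Real.norm_eq_abs] using this
      refine e2.trans (mul_le_mul_of_nonneg_left ?_ (norm_nonneg _))
      rw [le_div_iff₀ hpos]; linarith
    have := le_of_tendsto_of_tendsto hT3 hT2 hle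
    exact abs_eq_zero.1 (le_antisymm this (abs_nonneg _))
  apply hφ0
  ext f
  obtain ⟨e, e', hf⟩ := honto f
  have : f = (N vb - μ • B vb) e + B vb (μ • e + e') := by
    rw [← hf, sub_apply, smul_apply, map_add, map_smul]
    abel
  rw [LinearMap.zero_apply, ← hφc, this, map_add, hker, hBφ, add_zero]

/-- **Resolvent extension.** -/
theorem resolvent_core (hdim : Module.finrank ℝ E = Module.finrank ℝ F)
    (I : Set E) (H : E → E → ℝ) (B N : E → E →L[ℝ] F) (vb k : E) (C μ : ℝ)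
    (hB : ContDiffAt ℝ 2 B vb) (hN : ContDiffAt ℝ 2 N vb)
    (hrel : ∀ᶠ v in 𝓝 vb, v ∈ I → ResRel (B v) (N v) (H v))
    (hC : ∀ᶠ v in 𝓝 vb, v ∈ I → ∀ e, H v e ≤ C * ‖e‖ ^ 2) (hμ : C < μ)
    (honto : ∀ f : F, ∃ e e' : E, N vb e + B vb e' = f)
    (hcl : vb ∈ closure I) (hk : B vb k = 0) :
    ∃ ρ : E → ℝ, ContDiffAt ℝ 2 ρ vb ∧ ρ vb = 0 ∧ ∀ᶠ v in 𝓝 vb, v ∈ I →
      0 ≤ ρ v ∧ ∀ ξ : E, inner ℝ ξ k ^ 2 ≤ (μ * ‖ξ‖ ^ 2 - H v ξ) * ρ v := by
  have : CompleteSpace E := FiniteDimensional.complete ℝ E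
  have : CompleteSpace F := FiniteDimensional.complete ℝ F
  have hsurj := res_surj I H B N vb C μ hB.continuousAt hN.continuousAt hrel hC hμ honto hcl
  have hinj : Function.Injective (N vb - μ • B vb) :=
    (LinearMap.injective_iff_surjective_of_finrank_eq_finrank hdim
      (f := ((N vb - μ • B vb : E →L[ℝ] F) : E →ₗ[ℝ] F))).2 hsurj
  let e₀ : E ≃L[ℝ] F := (LinearEquiv.ofBijective ((N vb - μ • B vb : E →L[ℝ] F) : E →ₗ[ℝ] F)
    ⟨hinj, hsurj⟩).toContinuousLinearEquiv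
  have he₀ : (e₀ : E →L[ℝ] F) = N vb - μ • B vb := by
    ext z; rfl
  have h1 : ContDiffAt ℝ 2 (fun v => N v - μ • B v) vb := hN.sub (hB.const_smul μ)
  have h2 : ContDiffAt ℝ 2 (fun v => (N v - μ • B v).inverse) vb := by
    have h3 : ContDiffAt ℝ 2 ContinuousLinearMap.inverse (N vb - μ • B vb) := by
      rw [← he₀]; exact contDiffAt_map_inverse e₀
    exact h3.comp vb h1
  have h3 : ContDiffAt ℝ 2 (fun v => (N v - μ • B v).inverse (B v k)) vb :=
    h2.clm_apply (hB.clm_apply contDiffAt_const)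
  refine ⟨fun v => -inner ℝ ((N v - μ • B v).inverse (B v k)) k,
    (h3.inner ℝ contDiffAt_const).neg, ?_, ?_⟩
  · simp only [hk, map_zero, inner_zero_left, neg_zero]
  · have hinv : ∀ᶠ v in 𝓝 vb, (N v - μ • B v) ∈ range ((↑) : (E ≃L[ℝ] F) → E →L[ℝ] F) := by
      have h4 := ContinuousLinearEquiv.nhds e₀
      rw [he₀] at h4
      exact h1.continuousAt.eventually_mem h4
    filter_upwards [hrel, hC, hinv] with v hv1 hv2 hv3 hvI
    obtain ⟨A, hsym, hH, hNA⟩ := (hv1 hvI).exists_op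
    obtain ⟨e', he'⟩ := hv3
    set z := (N v - μ • B v).inverse (B v k) with hz
    have hz1 : (N v - μ • B v) z = B v k := by
      rw [hz, ← he', ContinuousLinearMap.inverse_equiv]
      simp
    have hz2 : A z - μ • z = k := by
      apply (hv1 hvI).1
      rw [map_sub, map_smul, ← hNA, ← hz1, sub_apply, smul_apply]
    have hc := res_cauchy A hsym C μ (fun e => by rw [← hH]; exact hv2 hvI e) hμ z k hz2
    refine ⟨le_trans (mul_nonneg (by linarith) (by positivity)) hc.1, fun ξ => ?_⟩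
    rw [hH]
    exact hc.2 ξ

/-- **Abstract Focal Lemma, final form**: a chord `[a,b]` with `θ • [a,b] ⊆ I` for `θ < 1` and
"nonfocal" ends cannot contain an interior point `vb` at which `B vb` has a kernel. -/
theorem focal_abstract (hdim : Module.finrank ℝ E = Module.finrank ℝ F)
    (I : Set E) (H : E → E → ℝ) (B N : E → E →L[ℝ] F) (a b k : E) (l₀ C C₁ θ₀ : ℝ)
    (hl₀ : 0 < l₀) (hl₁ : l₀ < 1) (hθ₀ : θ₀ < 1)
    (hv : (1 - l₀) • a + l₀ • b ≠ 0) (hk : k ≠ 0)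
    (hkv : inner ℝ k ((1 - l₀) • a + l₀ • b) = 0)
    (hI : ∀ θ : ℝ, θ₀ < θ → θ < 1 → ∀ l : ℝ, 0 ≤ l → l ≤ 1 → θ • ((1 - l) • a + l • b) ∈ I)
    (hconc : ∀ a' b' e : E, (∀ l : ℝ, 0 ≤ l → l ≤ 1 → (1 - l) • a' + l • b' ∈ I) →
      inner ℝ e (b' - a') = 0 → ∀ l : ℝ, 0 ≤ l → l ≤ 1 →
      (1 - l) * H a' e + l * H b' e ≤ H ((1 - l) • a' + l • b') e)
    (hends : ∀ θ : ℝ, θ₀ < θ → θ < 1 → ∀ e : E,
      -C₁ * ‖e‖ ^ 2 ≤ H (θ • a) e ∧ -C₁ * ‖e‖ ^ 2 ≤ H (θ • b) e)
    (hrad : ∀ v ∈ I, ∀ e : E, inner ℝ e v = 0 → ∀ α : ℝ,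
      H v (α • v + e) = α ^ 2 * ‖v‖ ^ 2 + H v e)
    (hH0 : ∀ v ∈ I, H v 0 = 0)
    (hB : ContDiffAt ℝ 2 B ((1 - l₀) • a + l₀ • b))
    (hN : ContDiffAt ℝ 2 N ((1 - l₀) • a + l₀ • b))
    (hrel : ∀ᶠ v in 𝓝 ((1 - l₀) • a + l₀ • b), v ∈ I → ResRel (B v) (N v) (H v))
    (hC : ∀ᶠ v in 𝓝 ((1 - l₀) • a + l₀ • b), v ∈ I → ∀ e, H v e ≤ C * ‖e‖ ^ 2)
    (honto : ∀ f : F, ∃ e e' : E,
      N ((1 - l₀) • a + l₀ • b) e + B ((1 - l₀) • a + l₀ • b) e' = f)
    (hBk : B ((1 - l₀) • a + l₀ • b) k = 0) : False := by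
  have hcl : (1 - l₀) • a + l₀ • b ∈ closure I := by
    have ht : Tendsto (fun θ : ℝ => θ • ((1 - l₀) • a + l₀ • b)) (𝓝[<] 1)
        (𝓝 ((1 - l₀) • a + l₀ • b)) := by
      have : Tendsto (fun θ : ℝ => θ • ((1 - l₀) • a + l₀ • b)) (𝓝 1)
          (𝓝 ((1 : ℝ) • ((1 - l₀) • a + l₀ • b))) :=
        (continuous_id.smul continuous_const).tendsto 1
      rw [one_smul] at this
      exact this.mono_left nhdsWithin_le_nhds
    refine mem_closure_of_tendsto ht ?_
    filter_upwards [(lt_mem_nhds hθ₀).filter_mono nhdsWithin_le_nhds, eventually_mem_nhdsWithin]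
      with θ h1 h2
    exact hI θ h1 h2 l₀ hl₀.le hl₁.le
  obtain ⟨ρ, hρ, hρ0, hstar⟩ := resolvent_core hdim I H B N _ k C (C + 1) hB hN hrel hC
    (by linarith) honto hcl hBk
  exact FocalHyp.false (I := I) (H := H) (a := a) (b := b) (k := k) (ρ := ρ) (l₀ := l₀)
    (μ := C + 1) (C₁ := C₁) (θ₀ := θ₀)
    ⟨hl₀, hl₁, hθ₀, hv, hk, hkv, hI, hconc, hends, hrad, hH0, hρ, hρ0, hstar⟩

end Claimed.Agent.R213
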