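import Claimed.Agent.R213.SoftDefs

/-!
# Row 213, SOFT layer, file A: honest support, closed graph of `Hon`, Caratheodory
-/

set_option autoImplicit false
open Claims Claims.C0370 Claims.C0370.WeakMTWGlobalSupport
open scoped Manifold ContDiff Topology
open Set Filter Manifold Bundle

namespace Claimed.Agent.R213

noncomputable section

variable {n : ℕ} {M : Type*} [MetricSpace M] [ChartedSpace (WeakMTW.Model n) M]
  [IsManifold (WeakMTW.model n) ∞ M]
  [RiemannianBundle (fun x : M => TangentSpace (WeakMTW.model n) x)]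

omit [IsManifold (WeakMTW.model n) ∞ M] in
/-- honest support. -/
theorem stmtSupport : StmtSupport n M := by
  intro P x v hv
  rcases hv with ⟨hm, hexp, hnorm⟩ | ⟨hm, hexp, hnorm⟩
  · refine ⟨?_, ?_⟩
    · show dist x (WeakMTW.exp x v) = ‖v‖
      rw [hexp, hnorm]
    · intro x'
      rw [hexp, ← hm]
      have h1 : P.m₁ x' ≤ P.phi x' := le_max_left _ _
      have h2 : P.m₁ x + cst x P.y₁ - cst x' P.y₁ = P.m₁ x' := by
        simp only [Pot.m₁, cst]; ring
      rw [h2]; exact h1
  · refine ⟨?_, ?_⟩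
    · show dist x (WeakMTW.exp x v) = ‖v‖
      rw [hexp, hnorm]
    · intro x'
      rw [hexp, ← hm]
      have h1 : P.m₂ x' ≤ P.phi x' := le_max_right _ _
      have h2 : P.m₂ x + cst x P.y₂ - cst x' P.y₂ = P.m₂ x' := by
        simp only [Pot.m₂, cst]; ring
      rw [h2]; exact h1

variable {NF : ∀ x : M, TangentSpace (WeakMTW.model n) x → Prop}
  {H : ∀ x : M, TangentSpace (WeakMTW.model n) x → TangentSpace (WeakMTW.model n) x → ℝ}

omit [ChartedSpace (WeakMTW.Model n) M] [IsManifold (WeakMTW.model n) ∞ M]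
  [RiemannianBundle (fun x : M => TangentSpace (WeakMTW.model n) x)] in
theorem Pot.continuous_m₁ (P : Pot M) : Continuous P.m₁ := by
  unfold Pot.m₁; fun_prop

omit [ChartedSpace (WeakMTW.Model n) M] [IsManifold (WeakMTW.model n) ∞ M]
  [RiemannianBundle (fun x : M => TangentSpace (WeakMTW.model n) x)] in
theorem Pot.continuous_m₂ (P : Pot M) : Continuous P.m₂ := by
  unfold Pot.m₂; fun_prop

omit [ChartedSpace (WeakMTW.Model n) M] [IsManifold (WeakMTW.model n) ∞ M]
  [RiemannianBundle (fun x : M => TangentSpace (WeakMTW.model n) x)] in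
theorem Pot.continuous_phi (P : Pot M) : Continuous P.phi := by
  unfold Pot.phi; exact P.continuous_m₁.max P.continuous_m₂

/-- `Hon` is nonempty and has closed graph. -/
theorem stmtHonClosed (hS : Soft NF H) : StmtHonClosed n M := by
  intro P
  refine ⟨?_, ?_⟩
  · intro x
    rcases le_total (P.m₂ x) (P.m₁ x) with h | h
    · obtain ⟨v, hv⟩ := hS.hopf_rinow x P.y₁
      exact ⟨v, Or.inl ⟨(max_eq_left h).symm, hv⟩⟩
    · obtain ⟨v, hv⟩ := hS.hopf_rinow x P.y₂
      exact ⟨v, Or.inr ⟨(max_eq_right h).symm, hv⟩⟩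
  · intro x xl v vl hv hlim
    have hproj : Continuous (fun p : TangentBundle (WeakMTW.model n) M => p.1) :=
      FiberBundle.continuous_proj (WeakMTW.Model n) _
    let S₁ : Set (TangentBundle (WeakMTW.model n) M) :=
      {p | P.m₁ p.1 = P.phi p.1 ∧ WeakMTW.exp p.1 p.2 = P.y₁ ∧ ‖p.2‖ = dist p.1 P.y₁}
    let S₂ : Set (TangentBundle (WeakMTW.model n) M) :=
      {p | P.m₂ p.1 = P.phi p.1 ∧ WeakMTW.exp p.1 p.2 = P.y₂ ∧ ‖p.2‖ = dist p.1 P.y₂}
    have hc₁ : IsClosed S₁ := by
      refine IsClosed.inter ?_ (IsClosed.inter ?_ ?_)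
      · exact isClosed_eq (P.continuous_m₁.comp hproj) (P.continuous_phi.comp hproj)
      · exact isClosed_eq hS.cont_exp continuous_const
      · exact isClosed_eq hS.cont_norm (hproj.dist continuous_const)
    have hc₂ : IsClosed S₂ := by
      refine IsClosed.inter ?_ (IsClosed.inter ?_ ?_)
      · exact isClosed_eq (P.continuous_m₂.comp hproj) (P.continuous_phi.comp hproj)
      · exact isClosed_eq hS.cont_exp continuous_const
      · exact isClosed_eq hS.cont_norm (hproj.dist continuous_const)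
    have hmem : ∀ k, mk (x k) (v k) ∈ S₁ ∪ S₂ := by
      intro k
      rcases hv k with ⟨h1, h2, h3⟩ | ⟨h1, h2, h3⟩
      · exact Or.inl ⟨h1, h2, h3⟩
      · exact Or.inr ⟨h1, h2, h3⟩
    have hl : mk xl vl ∈ S₁ ∪ S₂ :=
      (hc₁.union hc₂).mem_of_tendsto hlim (Eventually.of_forall hmem)
    rcases hl with ⟨h1, h2, h3⟩ | ⟨h1, h2, h3⟩
    · exact Or.inl ⟨h1, h2, h3⟩
    · exact Or.inr ⟨h1, h2, h3⟩

omit [IsManifold (WeakMTW.model n) ∞ M] in
/-- Caratheodory with a fixed index set. -/
theorem stmtRepr : StmtRepr n M := by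
  intro P x p hp
  have hfd : FiniteDimensional ℝ (TangentSpace (WeakMTW.model n) x) :=
    inferInstanceAs (FiniteDimensional ℝ (WeakMTW.Model n))
  have hfr : Module.finrank ℝ (TangentSpace (WeakMTW.model n) x) = n := by
    have : Module.finrank ℝ (WeakMTW.Model n) = n := by simp
    exact this
  obtain ⟨ι, hι, z, w, hz, haff, hw, hsum, hcomb⟩ := eq_pos_convex_span_of_mem_convexHull hp
  have hcard : Fintype.card ι ≤ n + 1 := by
    have h1 := haff.card_le_finrank_succ
    have h2 := Submodule.finrank_le (vectorSpan ℝ (range z))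
    omega
  have hne : Nonempty ι := by
    by_contra hcon
    rw [not_nonempty_iff] at hcon
    simp at hsum
  obtain ⟨i₀⟩ := hne
  have hcard' : Fintype.card ι ≤ Fintype.card (Fin (n + 1)) := by simpa using hcard
  obtain ⟨f⟩ := Function.Embedding.nonempty_of_card_le hcard'
  have hlam : ∀ i, Function.extend f w 0 (f i) = w i := fun i => f.injective.extend_apply _ _ _
  have hz' : ∀ i, Function.extend f z (fun _ => z i₀) (f i) = z i :=
    fun i => f.injective.extend_apply _ _ _
  have hout : ∀ j, j ∉ Finset.univ.map f → Function.extend f w 0 j = 0 := by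
    intro j hj
    have : ¬ ∃ i, f i = j := by
      rintro ⟨i, rfl⟩
      exact hj (Finset.mem_map_of_mem f (Finset.mem_univ i))
    rw [Function.extend_apply' _ _ _ this]; rfl
  refine ⟨Function.extend f w 0, Function.extend f z (fun _ => z i₀), ?_, ?_, ?_, ?_⟩
  · intro j
    by_cases h : ∃ i, f i = j
    · obtain ⟨i, rfl⟩ := h
      rw [hlam]; exact (hw i).le
    · rw [Function.extend_apply' _ _ _ h]; exact le_rfl
  · rw [← Finset.sum_subset (Finset.subset_univ (Finset.univ.map f))
      (fun j _ hj => hout j hj), Finset.sum_map]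
    simp only [hlam]; exact hsum
  · intro j
    by_cases h : ∃ i, f i = j
    · obtain ⟨i, rfl⟩ := h
      rw [hz']; exact hz ⟨i, rfl⟩
    · rw [Function.extend_apply' _ _ _ h]; exact hz ⟨i₀, rfl⟩
  · rw [← Finset.sum_subset (Finset.subset_univ (Finset.univ.map f))
      (fun j _ hj => by rw [hout j hj, zero_smul]), Finset.sum_map]
    simp only [hlam, hz']; exact hcomb.symm

end

end Claimed.Agent.R213
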