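import Claimed.Agent.R213.SoftDefs

/-!
# Row 213, SOFT layer, file B: extraction of convergent Caratheodory representations and
their limits (`StmtExtract`, `StmtReprLim`).
-/

set_option autoImplicit false
open Claims Claims.C0370 Claims.C0370.WeakMTWGlobalSupport
open scoped Manifold ContDiff Topology
open Set Filter Manifold Bundle

namespace Claimed.Agent.R213

noncomputable section

variable {n : ℕ} {M : Type*} [MetricSpace M] [ChartedSpace (WeakMTW.Model n) M]
  [IsManifold (WeakMTW.model n) ∞ M]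
  [RiemannianBundle (fun x : M => TangentSpace (WeakMTW.model n) x)]
variable {NF : ∀ x : M, TangentSpace (WeakMTW.model n) x → Prop}
  {H : ∀ x : M, TangentSpace (WeakMTW.model n) x → TangentSpace (WeakMTW.model n) x → ℝ}

/-- simultaneous extraction for finitely many bounded sequences of tangent vectors. -/
theorem softB_extract_finset (hS : Soft NF H) {ι : Type*} [DecidableEq ι] (t : Finset ι)
    (x : ℕ → M) (xl : M) (v : ∀ k, ι → TangentSpace (WeakMTW.model n) (x k)) (R : ℝ)
    (hx : Tendsto x atTop (𝓝 xl)) (hv : ∀ k i, ‖v k i‖ ≤ R) :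
    ∃ (φ : ℕ → ℕ) (wl : ι → TangentSpace (WeakMTW.model n) xl), StrictMono φ ∧
      ∀ i ∈ t, Tendsto (fun k => mk (x (φ k)) (v (φ k) i)) atTop (𝓝 (mk xl (wl i))) := by
  classical
  induction t using Finset.induction_on with
  | empty => exact ⟨id, fun _ => 0, strictMono_id, by simp⟩
  | insert a t _ ih =>
    obtain ⟨φ, wl, hφ, hw⟩ := ih
    obtain ⟨vl, ψ, hψ, hvl⟩ := hS.cpt (fun k => x (φ k)) xl (fun k => v (φ k) a) R
      (hx.comp hφ.tendsto_atTop) (fun k => hv _ _)
    refine ⟨φ ∘ ψ, Function.update wl a vl, hφ.comp hψ, ?_⟩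
    intro i hi
    by_cases hia : i = a
    · subst hia
      simpa using hvl
    · have hit : i ∈ t := by
        rcases Finset.mem_insert.1 hi with h | h
        · exact absurd h hia
        · exact h
      rw [Function.update_of_ne hia]
      exact (hw i hit).comp hψ.tendsto_atTop

omit [IsManifold (WeakMTW.model n) ∞ M] in
/-- honest velocities are bounded by the diameter. -/
theorem softB_norm_le_diam [CompactSpace M] (P : Pot M) (x : M)
    (v : TangentSpace (WeakMTW.model n) x) (hv : v ∈ P.Hon x) :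
    ‖v‖ ≤ Metric.diam (univ : Set M) := by
  have hb : Bornology.IsBounded (univ : Set M) := isCompact_univ.isBounded
  rcases hv with ⟨_, hv⟩ | ⟨_, hv⟩
  · rw [hv.2]; exact Metric.dist_le_diam_of_mem hb (mem_univ _) (mem_univ _)
  · rw [hv.2]; exact Metric.dist_le_diam_of_mem hb (mem_univ _) (mem_univ _)

theorem stmtExtract [CompactSpace M] (hS : Soft NF H) (h1 : StmtRepr n M)
    (_h2 : StmtSupport n M) : StmtExtract n M := by
  classical
  intro P x p hp
  choose lam0 w0 hnn hsum hmem hrep using fun k => h1 P (x k) (p k) (hp k)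
  -- base points
  obtain ⟨xl, φ₁, hφ₁, hx₁⟩ := CompactSpace.tendsto_subseq x
  -- weights
  have hle : ∀ k i, lam0 k i ≤ 1 := by
    intro k i
    rw [← hsum k]
    exact Finset.single_le_sum (fun j _ => hnn k j) (Finset.mem_univ i)
  have hIcc : ∀ k, lam0 (φ₁ k) ∈ Icc (0 : Fin (n + 1) → ℝ) 1 := fun k =>
    ⟨fun i => hnn _ i, fun i => hle _ i⟩
  obtain ⟨laml, _, φ₂, hφ₂, hlam⟩ := isCompact_Icc.tendsto_subseq hIcc
  -- vectors
  have hx₂ : Tendsto (fun k => x (φ₁ (φ₂ k))) atTop (𝓝 xl) := hx₁.comp hφ₂.tendsto_atTop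
  obtain ⟨φ₃, wl, hφ₃, hw⟩ := softB_extract_finset hS (Finset.univ : Finset (Fin (n + 1)))
    (fun k => x (φ₁ (φ₂ k))) xl (fun k => w0 (φ₁ (φ₂ k))) (Metric.diam (univ : Set M)) hx₂
    (fun k i => softB_norm_le_diam P _ _ (hmem _ i))
  refine ⟨fun k => φ₁ (φ₂ (φ₃ k)), xl, fun k => lam0 (φ₁ (φ₂ (φ₃ k))), laml,
    fun k => w0 (φ₁ (φ₂ (φ₃ k))), wl, hφ₁.comp (hφ₂.comp hφ₃), ?_, fun k => hrep _⟩
  refine ⟨hx₂.comp hφ₃.tendsto_atTop, fun k i => hnn _ i, fun k => hsum _, fun k i => hmem _ i,
    ?_, fun i => hw i (Finset.mem_univ i)⟩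
  intro i
  have := (tendsto_pi_nhds.1 hlam i).comp hφ₃.tendsto_atTop
  exact this

/-- continuity of finite linear combinations. -/
theorem softB_tendsto_sum (hS : Soft NF H) {ι : Type*} (t : Finset ι)
    (x : ℕ → M) (xl : M) (lam : ℕ → ι → ℝ) (laml : ι → ℝ)
    (w : ∀ k, ι → TangentSpace (WeakMTW.model n) (x k))
    (wl : ι → TangentSpace (WeakMTW.model n) xl)
    (h0 : Tendsto (fun k => mk (x k) (0 : TangentSpace (WeakMTW.model n) (x k))) atTop
      (𝓝 (mk xl (0 : TangentSpace (WeakMTW.model n) xl))))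
    (hlam : ∀ i ∈ t, Tendsto (fun k => lam k i) atTop (𝓝 (laml i)))
    (hw : ∀ i ∈ t, Tendsto (fun k => mk (x k) (w k i)) atTop (𝓝 (mk xl (wl i)))) :
    Tendsto (fun k => mk (x k) (∑ i ∈ t, lam k i • w k i)) atTop
      (𝓝 (mk xl (∑ i ∈ t, laml i • wl i))) := by
  classical
  induction t using Finset.induction_on with
  | empty => simpa using h0
  | insert a t ha ih =>
    have ih' := ih (fun i hi => hlam i (Finset.mem_insert_of_mem hi))
      (fun i hi => hw i (Finset.mem_insert_of_mem hi))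
    have := hS.lin x xl (fun k => w k a) (fun k => ∑ i ∈ t, lam k i • w k i) (wl a)
      (∑ i ∈ t, laml i • wl i) (fun k => lam k a) (fun _ => 1) (laml a) 1
      (hw a (Finset.mem_insert_self a t)) ih' (hlam a (Finset.mem_insert_self a t))
      tendsto_const_nhds
    simpa [Finset.sum_insert ha] using this

theorem stmtReprLim (hS : Soft NF H) (h : StmtHonClosed n M) : StmtReprLim n M := by
  classical
  intro P x xl lam laml w wl hC
  have hnn : ∀ i, 0 ≤ laml i := fun i =>
    ge_of_tendsto' (hC.lam_tendsto i) (fun k => hC.lam_nonneg k i)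
  have hsum : ∑ i, laml i = 1 := by
    have h1 : Tendsto (fun k => ∑ i, lam k i) atTop (𝓝 (∑ i, laml i)) :=
      tendsto_finsetSum _ (fun i _ => hC.lam_tendsto i)
    have h2 : Tendsto (fun k => ∑ i, lam k i) atTop (𝓝 1) := by
      simp only [hC.lam_sum]; exact tendsto_const_nhds
    exact tendsto_nhds_unique h1 h2
  have hmem : ∀ i, wl i ∈ P.Hon xl := fun i =>
    (h P).2 x xl (fun k => w k i) (wl i) (fun k => hC.w_mem k i) (hC.w_tendsto i)
  have hK : (∑ i, laml i • wl i) ∈ P.K xl :=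
    (convex_convexHull ℝ (P.Hon xl)).sum_mem (fun i _ => hnn i) hsum
      (fun i _ => subset_convexHull ℝ _ (hmem i))
  refine ⟨hnn, hsum, hmem, hK, ?_⟩
  intro s S hs
  have h0 : Tendsto (fun k => mk (x k) (0 : TangentSpace (WeakMTW.model n) (x k))) atTop
      (𝓝 (mk xl (0 : TangentSpace (WeakMTW.model n) xl))) := by
    have := hS.lin x xl (fun k => w k 0) (fun k => w k 0) (wl 0) (wl 0) (fun _ => 0) (fun _ => 0)
      0 0 (hC.w_tendsto 0) (hC.w_tendsto 0) tendsto_const_nhds tendsto_const_nhds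
    simpa using this
  have hsumT := softB_tendsto_sum hS Finset.univ x xl lam laml w wl h0
    (fun i _ => hC.lam_tendsto i) (fun i _ => hC.w_tendsto i)
  have := hS.lin x xl (fun k => ∑ i, lam k i • w k i) (fun k => ∑ i, lam k i • w k i)
    (∑ i, laml i • wl i) (∑ i, laml i • wl i) s (fun _ => 0) S 0 hsumT hsumT hs
    tendsto_const_nhds
  simpa using this

end

end Claimed.Agent.R213
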