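import Claimed.Agent.R213.SoftDefs

/-!
# Row 213, SOFT layer: first order condition (F2) and global minimisers (F3)
-/

set_option autoImplicit false
set_option linter.unusedSectionVars false
open Claims Claims.C0370 Claims.C0370.WeakMTWGlobalSupport
open scoped Manifold ContDiff Topology Pointwise
open Set Filter Manifold Bundle

namespace Claimed.Agent.R213

noncomputable section

variable {n : ℕ} {M : Type*} [MetricSpace M] [ChartedSpace (WeakMTW.Model n) M]
  [IsManifold (WeakMTW.model n) ∞ M]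
  [RiemannianBundle (fun x : M => TangentSpace (WeakMTW.model n) x)] [CompactSpace M]
variable {NF : ∀ x : M, TangentSpace (WeakMTW.model n) x → Prop}
  {H : ∀ x : M, TangentSpace (WeakMTW.model n) x → TangentSpace (WeakMTW.model n) x → ℝ}

omit [CompactSpace M] in
/-- the inclusion of a fibre is continuous. -/
theorem f2_continuous_mk (x : M) :
    Continuous (fun v : TangentSpace (WeakMTW.model n) x => mk x v) :=
  (FiberBundle.totalSpaceMk_isInducing (WeakMTW.Model n)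
    (fun x : M => TangentSpace (WeakMTW.model n) x) x).continuous

omit [CompactSpace M] in
theorem f2_finiteDimensional (x : M) : FiniteDimensional ℝ (TangentSpace (WeakMTW.model n) x) :=
  inferInstanceAs (FiniteDimensional ℝ (WeakMTW.Model n))

omit [CompactSpace M] in
theorem f2_mk_inj {x : M} {v w : TangentSpace (WeakMTW.model n) x} (h : mk x v = mk x w) :
    v = w := by
  simpa using h

omit [CompactSpace M] in
/-- `s • K x` is closed. -/
theorem f2_isClosed_smul_K (hS : Soft NF H) (hE : StmtExtract n M) (hL : StmtReprLim n M)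
    (P : Pot M) (x : M) (s : ℝ) : IsClosed (s • P.K (n := n) x) := by
  have := hS.t2
  refine IsSeqClosed.isClosed ?_
  intro q ql hq hql
  choose p hp hpq using fun k => Set.mem_smul_set.1 (hq k)
  obtain ⟨φ, xl, lam, laml, w, wl, hφ, hC, hrep⟩ := hE P (fun _ => x) p hp
  have hxl : xl = x := tendsto_nhds_unique hC.hx tendsto_const_nhds
  subst hxl
  obtain ⟨-, -, -, hK, hlim⟩ := hL P _ _ lam laml w wl hC
  have h1 := hlim (fun _ => s) s tendsto_const_nhds
  have h2 : Tendsto (fun k => mk xl (q (φ k))) atTop (𝓝 (mk xl ql)) :=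
    ((f2_continuous_mk xl).tendsto ql).comp (hql.comp hφ.tendsto_atTop)
  have h3 : (fun k => mk xl (q (φ k))) = fun k => mk xl (s • ∑ i, lam k i • w k i) := by
    funext k
    rw [← hrep k, hpq (φ k)]
  rw [h3] at h2
  have h4 := f2_mk_inj (tendsto_nhds_unique h2 h1)
  rw [h4]
  exact Set.smul_mem_smul_set hK

omit [CompactSpace M] in
/-- one-sided first order expansion of `phi` at a point with an honest velocity. -/
theorem f2_phi_le {C r : ℝ}
    (hsc : ∀ (x y : M) (v : TangentSpace (WeakMTW.model n) x),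
      v ∈ Vmin x y → ∀ e : TangentSpace (WeakMTW.model n) x, ‖e‖ < r →
        cst (WeakMTW.exp x e) y ≤ cst x y - inner ℝ v e + C * ‖e‖ ^ 2)
    (P : Pot M) (z : M) (v d : TangentSpace (WeakMTW.model n) z) (hv : v ∈ P.Hon z)
    (hd : ‖d‖ < r) :
    P.phi z - P.phi (WeakMTW.exp z d) ≤ - inner ℝ v d + C * ‖d‖ ^ 2 := by
  rcases hv with ⟨h1, h2⟩ | ⟨h1, h2⟩
  · have h3 := hsc z P.y₁ v h2 d hd
    have h4 : P.m₁ (WeakMTW.exp z d) ≤ P.phi (WeakMTW.exp z d) := le_max_left _ _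
    rw [← h1]
    simp only [Pot.m₁, cst] at h3 h4 ⊢
    linarith
  · have h3 := hsc z P.y₂ v h2 d hd
    have h4 : P.m₂ (WeakMTW.exp z d) ≤ P.phi (WeakMTW.exp z d) := le_max_right _ _
    rw [← h1]
    simp only [Pot.m₂, cst] at h3 h4 ⊢
    linarith

omit [CompactSpace M] in
theorem f2_norm_le_of_mem_Hon {R : ℝ} (hR : ∀ a b : M, dist a b ≤ R) (P : Pot M) (z : M)
    (v : TangentSpace (WeakMTW.model n) z) (hv : v ∈ P.Hon z) : ‖v‖ ≤ R := by
  rcases hv with ⟨-, h2⟩ | ⟨-, h2⟩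
  · rw [h2.2]; exact hR _ _
  · rw [h2.2]; exact hR _ _

omit [CompactSpace M] in
theorem f2_tendsto_norm (hS : Soft NF H) {X : ℕ → M} {xl : M}
    {w : ∀ k, TangentSpace (WeakMTW.model n) (X k)} {wl : TangentSpace (WeakMTW.model n) xl}
    (h : Tendsto (fun k => mk (X k) (w k)) atTop (𝓝 (mk xl wl))) :
    Tendsto (fun k => ‖w k‖) atTop (𝓝 ‖wl‖) := by
  have h1 := (hS.cont_norm.tendsto (mk xl wl)).comp h
  dsimp only [Function.comp_def] at h1
  exact h1

/-- the directional inequality behind (F2): in every direction `e` some honest velocity `vl`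
satisfies `0 ≤ ⟨a,e⟩ + s ⟨vl,e⟩`. -/
theorem f2_key (hS : Soft NF H) (hHC : StmtHonClosed n M) (P : Pot M) (x : M) (s : ℝ)
    (a : TangentSpace (WeakMTW.model n) x) (g : M → ℝ) (C r : ℝ) (hs : 0 ≤ s) (hr : 0 < r)
    (hg : ∀ e : TangentSpace (WeakMTW.model n) x, ‖e‖ < r →
      g (WeakMTW.exp x e) ≤ g x + inner ℝ a e + C * ‖e‖ ^ 2)
    (hmin : ∀ᶠ x' in 𝓝 x, s * P.phi x + g x ≤ s * P.phi x' + g x')
    (e : TangentSpace (WeakMTW.model n) x) :
    ∃ vl ∈ P.Hon x, 0 ≤ inner ℝ a e + s * inner ℝ vl e := by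
  obtain ⟨E, hE1, hE2⟩ := hS.vel x e
  obtain ⟨C', r', hr', hsc⟩ := hS.semiconcave
  obtain ⟨R, hR⟩ : ∃ R : ℝ, ∀ a b : M, dist a b ≤ R := by
    obtain ⟨R, hR⟩ := Metric.isBounded_iff.1 (isCompact_univ (X := M)).isBounded
    exact ⟨R, fun a b => hR (mem_univ a) (mem_univ b)⟩
  -- the sequences
  obtain ⟨ε, hεpos, hε0⟩ : ∃ ε : ℕ → ℝ, (∀ k, 0 < ε k) ∧ Tendsto ε atTop (𝓝 0) :=
    ⟨fun k => 1 / ((k : ℝ) + 1), fun k => by positivity,
      tendsto_one_div_add_atTop_nhds_zero_nat⟩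
  have hXlim : Tendsto (fun k => WeakMTW.exp x (ε k • e)) atTop (𝓝 x) := by
    rw [tendsto_iff_dist_tendsto_zero]
    have h0 : Tendsto (fun k => ε k * ‖e‖) atTop (𝓝 0) := by simpa using hε0.mul_const ‖e‖
    refine squeeze_zero (fun _ => dist_nonneg) (fun k => ?_) h0
    rw [dist_comm]
    refine (hS.dist_exp_le x (ε k • e)).trans (le_of_eq ?_)
    rw [norm_smul, Real.norm_of_nonneg (hεpos k).le]
  choose v hv using fun k => (hHC P).1 (WeakMTW.exp x (ε k • e))
  obtain ⟨vl, ψ, hψ, hvlim⟩ := hS.cpt (fun k => WeakMTW.exp x (ε k • e)) x v R hXlim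
    (fun k => f2_norm_le_of_mem_Hon hR P _ (v k) (hv k))
  have hvl : vl ∈ P.Hon x := (hHC P).2 (fun k => WeakMTW.exp x (ε (ψ k) • e)) x
    (fun k => v (ψ k)) vl (fun k => hv (ψ k)) hvlim
  refine ⟨vl, hvl, ?_⟩
  have hElim : Tendsto (fun k => mk (WeakMTW.exp x (ε (ψ k) • e)) (E (ε (ψ k)))) atTop
      (𝓝 (mk x e)) := hE2.comp (hε0.comp hψ.tendsto_atTop)
  have hin : Tendsto (fun k => inner ℝ (v (ψ k)) (E (ε (ψ k)))) atTop (𝓝 (inner ℝ vl e)) :=
    hS.cont_inner (fun k => WeakMTW.exp x (ε (ψ k) • e)) x (fun k => v (ψ k))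
      (fun k => E (ε (ψ k))) vl e hvlim hElim
  have hnE : Tendsto (fun k => ‖E (ε (ψ k))‖) atTop (𝓝 ‖e‖) := f2_tendsto_norm hS hElim
  have hεψ : Tendsto (fun k => ε (ψ k)) atTop (𝓝 0) := hε0.comp hψ.tendsto_atTop
  -- the limit of the right hand side
  have hlim : Tendsto (fun k => inner ℝ a e + s * inner ℝ (v (ψ k)) (E (ε (ψ k))) +
      ε (ψ k) * (C * ‖e‖ ^ 2 + s * (C' * ‖E (ε (ψ k))‖ ^ 2))) atTop
      (𝓝 (inner ℝ a e + s * inner ℝ vl e + 0 * (C * ‖e‖ ^ 2 + s * (C' * ‖e‖ ^ 2)))) :=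
    (tendsto_const_nhds.add (hin.const_mul s)).add
      (hεψ.mul (tendsto_const_nhds.add (((hnE.pow 2).const_mul C').const_mul s)))
  rw [zero_mul, add_zero] at hlim
  -- smallness conditions
  have hsm1 : ∀ᶠ k in atTop, ‖ε (ψ k) • e‖ < r := by
    have h0 : Tendsto (fun k => ε (ψ k) * ‖e‖) atTop (𝓝 (0 * ‖e‖)) := hεψ.mul_const _
    rw [zero_mul] at h0
    filter_upwards [h0.eventually (gt_mem_nhds hr)] with k hk
    rwa [norm_smul, Real.norm_of_nonneg (hεpos _).le]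
  have hsm2 : ∀ᶠ k in atTop, ‖(-ε (ψ k)) • E (ε (ψ k))‖ < r' := by
    have h0 : Tendsto (fun k => ε (ψ k) * ‖E (ε (ψ k))‖) atTop (𝓝 (0 * ‖e‖)) := hεψ.mul hnE
    rw [zero_mul] at h0
    filter_upwards [h0.eventually (gt_mem_nhds hr')] with k hk
    rwa [norm_smul, norm_neg, Real.norm_of_nonneg (hεpos _).le]
  have hsm3 : ∀ᶠ k in atTop, s * P.phi x + g x ≤
      s * P.phi (WeakMTW.exp x (ε (ψ k) • e)) + g (WeakMTW.exp x (ε (ψ k) • e)) :=
    (hXlim.comp hψ.tendsto_atTop).eventually hmin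
  suffices hev : ∀ᶠ k in atTop, 0 ≤ inner ℝ a e + s * inner ℝ (v (ψ k)) (E (ε (ψ k))) +
      ε (ψ k) * (C * ‖e‖ ^ 2 + s * (C' * ‖E (ε (ψ k))‖ ^ 2)) from ge_of_tendsto hlim hev
  filter_upwards [hsm1, hsm2, hsm3] with k h1 h2 h3
  have h4 := hg (ε (ψ k) • e) h1
  have h5 := f2_phi_le hsc P _ (v (ψ k)) ((-ε (ψ k)) • E (ε (ψ k))) (hv (ψ k)) h2
  rw [hE1 (ε (ψ k))] at h5
  rw [inner_smul_right, norm_smul, Real.norm_of_nonneg (hεpos _).le] at h4
  rw [inner_smul_right, norm_smul, norm_neg, Real.norm_of_nonneg (hεpos _).le] at h5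
  have h6 := mul_le_mul_of_nonneg_left h5 hs
  have h7 : 0 ≤ ε (ψ k) * (inner ℝ a e + s * inner ℝ (v (ψ k)) (E (ε (ψ k))) +
      ε (ψ k) * (C * ‖e‖ ^ 2 + s * (C' * ‖E (ε (ψ k))‖ ^ 2))) := by
    nlinarith
  exact nonneg_of_mul_nonneg_right h7 (hεpos _)

/-- (F2) first order condition. -/
theorem stmtF2 (hS : Soft NF H) (hHC : StmtHonClosed n M) (hE : StmtExtract n M)
    (hL : StmtReprLim n M) : StmtF2 n M := by
  intro P x s a g C r hs hr hg hmin
  by_contra hcon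
  have hnot : -a ∉ s • P.K (n := n) x := by
    intro h
    obtain ⟨p, hp, hpa⟩ := Set.mem_smul_set.1 h
    exact hcon ⟨p, hp, hpa.symm⟩
  have hfd := f2_finiteDimensional (n := n) x
  have hcs : CompleteSpace (TangentSpace (WeakMTW.model n) x) := FiniteDimensional.complete ℝ _
  obtain ⟨f, u, hf1, hf2⟩ := geometric_hahn_banach_closed_point
    ((convex_convexHull ℝ (P.Hon (n := n) x)).smul s) (f2_isClosed_smul_K hS hE hL P x s) hnot
  obtain ⟨e, hfe⟩ : ∃ e : TangentSpace (WeakMTW.model n) x, ∀ y, f y = inner ℝ e y :=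
    ⟨(InnerProductSpace.toDual ℝ _).symm f, fun y => by
      rw [InnerProductSpace.toDual_symm_apply]⟩
  obtain ⟨vl, hvl, hge⟩ := f2_key hS hHC P x s a g C r hs hr hg hmin e
  have h9 := hf1 (s • vl) (Set.smul_mem_smul_set (subset_convexHull ℝ _ hvl))
  rw [hfe] at h9 hf2
  rw [inner_smul_right] at h9
  rw [inner_neg_right] at hf2
  rw [real_inner_comm e a, real_inner_comm e vl] at hge
  linarith

/-- (F3) global minimisers. -/
theorem stmtF3 (hS : Soft NF H) (h : StmtF2 n M) : StmtF3 n M := by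
  intro P s y hs
  have hcont : Continuous fun x : M => s * P.phi x + cst x y := by
    unfold Pot.phi Pot.m₁ Pot.m₂ cst
    fun_prop
  have : Nonempty M := ⟨y⟩
  obtain ⟨x', -, hx'⟩ := (isCompact_univ (X := M)).exists_isMinOn univ_nonempty hcont.continuousOn
  refine ⟨x', fun x'' => hx' (mem_univ x''), fun v hv => ?_⟩
  obtain ⟨C, r, hr, hsc⟩ := hS.semiconcave
  obtain ⟨p, hp, hpv⟩ := h P x' s (-v) (fun z => cst z y) C r hs hr
    (fun e he => by
      have := hsc x' y v hv e he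
      rw [inner_neg_left]
      linarith)
    (Eventually.of_forall fun x'' => hx' (mem_univ x''))
  exact ⟨p, hp, by rw [← hpv, neg_neg]⟩

end

end Claimed.Agent.R213
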