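import Claimed.Agent.R213.SoftDefs

/-!
# Row 213, SOFT layer: non-crossing (F4) and closedness of `Good`
-/

set_option autoImplicit false
open Claims Claims.C0370 Claims.C0370.WeakMTWGlobalSupport
open scoped Manifold ContDiff Topology
open Set Filter Manifold Bundle

namespace Claimed.Agent.R213

noncomputable section

variable {n : ℕ} {M : Type*} [MetricSpace M] [ChartedSpace (WeakMTW.Model n) M]
  [IsManifold (WeakMTW.model n) ∞ M]
  [RiemannianBundle (fun x : M => TangentSpace (WeakMTW.model n) x)]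
  [CompactSpace M]

variable {NF : ∀ x : M, TangentSpace (WeakMTW.model n) x → Prop}
  {H : ∀ x : M, TangentSpace (WeakMTW.model n) x → TangentSpace (WeakMTW.model n) x → ℝ}

/-- elementary inequality behind (F4). -/
theorem f4_arith (l₁ l₂ r a b : ℝ) (hr0 : 0 < r) (hr1 : r < 1)
    (ha0 : 0 ≤ a) (hb0 : 0 ≤ b)
    (ha : a ≤ r * l₁ + (1 - r) * l₂) (hb : b ≤ r * l₂ + (1 - r) * l₁)
    (hsum : l₁ ^ 2 + l₂ ^ 2 ≤ a ^ 2 + b ^ 2) : l₁ = l₂ ∧ a = l₁ := by
  have h1 : a ^ 2 ≤ (r * l₁ + (1 - r) * l₂) ^ 2 := pow_le_pow_left₀ ha0 ha 2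
  have h2 : b ^ 2 ≤ (r * l₂ + (1 - r) * l₁) ^ 2 := pow_le_pow_left₀ hb0 hb 2
  have hpos : 0 < r * (1 - r) := mul_pos hr0 (by linarith)
  have h3 : r * (1 - r) * (l₁ - l₂) ^ 2 ≤ 0 := by nlinarith
  have h4 : (l₁ - l₂) ^ 2 ≤ 0 := by
    by_contra hcon
    rw [not_le] at hcon
    have := mul_pos hpos hcon
    linarith
  have h5 : l₁ - l₂ = 0 := by
    have : (l₁ - l₂) ^ 2 = 0 := le_antisymm h4 (sq_nonneg _)
    exact pow_eq_zero_iff (two_ne_zero) |>.1 this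
  have h6 : l₁ = l₂ := by linarith
  subst h6
  refine ⟨rfl, ?_⟩
  have ha' : a ≤ l₁ := by nlinarith
  have hb' : b ≤ l₁ := by nlinarith
  have hb2 : b ^ 2 ≤ l₁ ^ 2 := pow_le_pow_left₀ hb0 hb' 2
  have ha2 : l₁ ^ 2 ≤ a ^ 2 := by linarith
  have hl0 : 0 ≤ l₁ := le_trans ha0 ha'
  have : l₁ ≤ a := by
    exact (pow_le_pow_iff_left₀ hl0 ha0 two_ne_zero).1 ha2
  linarith

theorem stmtF4 (hS : Soft NF H) : StmtF4 n M := by
  intro P S s hG hs0 hsS x₁ x₂ p₁ p₂ hp₁ hp₂ hexp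
  have hS0 : 0 < S := lt_trans hs0 hsS
  obtain ⟨hI₁, hmin₁⟩ := hG x₁ p₁ hp₁
  obtain ⟨hI₂, hmin₂⟩ := hG x₂ p₂ hp₂
  set v₁ : TangentSpace (WeakMTW.model n) x₁ := S • p₁ with hv₁
  set v₂ : TangentSpace (WeakMTW.model n) x₂ := S • p₂ with hv₂
  set r : ℝ := s / S with hr
  have hr0 : 0 < r := div_pos hs0 hS0
  have hr1 : r < 1 := (div_lt_one hS0).2 hsS
  have hrv₁ : r • v₁ = s • p₁ := by
    rw [hv₁, smul_smul, hr, div_mul_cancel₀ _ hS0.ne']
  have hrv₂ : r • v₂ = s • p₂ := by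
    rw [hv₂, smul_smul, hr, div_mul_cancel₀ _ hS0.ne']
  have hexp' : WeakMTW.exp x₁ (r • v₁) = WeakMTW.exp x₂ (r • v₂) := by
    rw [hrv₁, hrv₂]; exact hexp
  -- distances along the two geodesics
  have d1a : dist x₁ (WeakMTW.exp x₁ (r • v₁)) = r * ‖v₁‖ := by
    have h := hS.ray x₁ v₁ hI₁ 0 r le_rfl hr0.le hr1.le
    rw [zero_smul, hS.exp_zero, sub_zero] at h
    exact h
  have d1b : dist (WeakMTW.exp x₁ (r • v₁)) (WeakMTW.exp x₁ v₁) = (1 - r) * ‖v₁‖ := by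
    have h := hS.ray x₁ v₁ hI₁ r 1 hr0.le hr1.le le_rfl
    rw [one_smul] at h
    exact h
  have d2a : dist x₂ (WeakMTW.exp x₂ (r • v₂)) = r * ‖v₂‖ := by
    have h := hS.ray x₂ v₂ hI₂ 0 r le_rfl hr0.le hr1.le
    rw [zero_smul, hS.exp_zero, sub_zero] at h
    exact h
  have d2b : dist (WeakMTW.exp x₂ (r • v₂)) (WeakMTW.exp x₂ v₂) = (1 - r) * ‖v₂‖ := by
    have h := hS.ray x₂ v₂ hI₂ r 1 hr0.le hr1.le le_rfl
    rw [one_smul] at h
    exact h
  have ta : dist x₁ (WeakMTW.exp x₂ v₂) ≤ r * ‖v₁‖ + (1 - r) * ‖v₂‖ := by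
    calc dist x₁ (WeakMTW.exp x₂ v₂)
        ≤ dist x₁ (WeakMTW.exp x₁ (r • v₁)) +
            dist (WeakMTW.exp x₁ (r • v₁)) (WeakMTW.exp x₂ v₂) := dist_triangle _ _ _
      _ = r * ‖v₁‖ + (1 - r) * ‖v₂‖ := by rw [d1a, hexp', d2b]
  have tb : dist x₂ (WeakMTW.exp x₁ v₁) ≤ r * ‖v₂‖ + (1 - r) * ‖v₁‖ := by
    calc dist x₂ (WeakMTW.exp x₁ v₁)
        ≤ dist x₂ (WeakMTW.exp x₂ (r • v₂)) +
            dist (WeakMTW.exp x₂ (r • v₂)) (WeakMTW.exp x₁ v₁) := dist_triangle _ _ _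
      _ = r * ‖v₂‖ + (1 - r) * ‖v₁‖ := by rw [d2a, ← hexp', d1b]
  have e1 : dist x₁ (WeakMTW.exp x₁ v₁) = ‖v₁‖ := hI₁
  have e2 : dist x₂ (WeakMTW.exp x₂ v₂) = ‖v₂‖ := hI₂
  have m1 := hmin₁ x₂
  have m2 := hmin₂ x₁
  have hsum : ‖v₁‖ ^ 2 + ‖v₂‖ ^ 2 ≤
      dist x₁ (WeakMTW.exp x₂ v₂) ^ 2 + dist x₂ (WeakMTW.exp x₁ v₁) ^ 2 := by
    simp only [cst] at m1 m2
    rw [e1] at m1
    rw [e2] at m2
    linarith
  obtain ⟨hl, hd⟩ := f4_arith ‖v₁‖ ‖v₂‖ r _ _ hr0 hr1 dist_nonneg dist_nonneg ta tb hsum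
  have hmk : mk x₁ v₁ = mk x₂ v₂ := hS.nocross x₁ x₂ v₁ v₂ r hr0 hr1 hI₁ hI₂ hl hexp' hd
  have hx : x₁ = x₂ := congrArg (fun q : TangentBundle (WeakMTW.model n) M => q.1) hmk
  subst hx
  have hv : v₁ = v₂ := by
    have := hmk
    simp only [mk, Bundle.TotalSpace.mk_inj] at this
    exact this
  have hp : p₁ = p₂ := by
    rw [hv₁, hv₂] at hv
    exact smul_right_injective _ hS0.ne' hv
  rw [hp]

/-- `s ↦ (x, s p)` is continuous into the tangent bundle. -/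
theorem f4_continuous_mk_smul (x : M) (p : TangentSpace (WeakMTW.model n) x) :
    Continuous (fun s : ℝ => mk x (s • p)) := by
  have h1 : Continuous (fun v : TangentSpace (WeakMTW.model n) x => mk x v) :=
    FiberBundle.continuous_totalSpaceMk (WeakMTW.Model n)
      (fun x : M => TangentSpace (WeakMTW.model n) x) x
  have h2 : Continuous (fun s : ℝ => s • p) := continuous_id.smul continuous_const
  exact h1.comp h2

theorem stmtClosed (hS : Soft NF H) : StmtClosed n M := by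
  intro P
  have hset : {s : ℝ | P.Good n s} =
      ⋂ (x : M), ⋂ (p : TangentSpace (WeakMTW.model n) x), ⋂ (_ : p ∈ P.K x),
        ({s : ℝ | dist x (WeakMTW.exp x (s • p)) = ‖s • p‖} ∩
          ⋂ (x' : M), {s : ℝ | s * P.phi x + cst x (WeakMTW.exp x (s • p)) ≤
            s * P.phi x' + cst x' (WeakMTW.exp x (s • p))}) := by
    ext s
    simp only [Pot.Good, Ibar, mem_ofPred_eq, mem_iInter, mem_inter_iff]
  rw [hset]
  refine isClosed_iInter fun x => isClosed_iInter fun p => isClosed_iInter fun _ => ?_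
  have hc : Continuous (fun s : ℝ => WeakMTW.exp x (s • p)) :=
    hS.cont_exp.comp (f4_continuous_mk_smul x p)
  have hn : Continuous (fun s : ℝ => ‖s • p‖) :=
    hS.cont_norm.comp (f4_continuous_mk_smul x p)
  refine IsClosed.inter ?_ (isClosed_iInter fun x' => ?_)
  · exact isClosed_eq (continuous_const.dist hc) hn
  · refine isClosed_le ?_ ?_
    · exact (continuous_id.mul continuous_const).add
        (((continuous_const.dist hc).pow 2).div_const 2)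
    · exact (continuous_id.mul continuous_const).add
        (((continuous_const.dist hc).pow 2).div_const 2)

end

end Claimed.Agent.R213
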