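import Claimed.Agent.R213.SoftDefs

/-!
# Row 213, SOFT layer: Lemma S (uniform strict local minimum), blow-up argument
-/

set_option autoImplicit false
set_option linter.unusedSectionVars false
set_option linter.unusedVariables false
open Claims Claims.C0370 Claims.C0370.WeakMTWGlobalSupport
open scoped Manifold ContDiff Topology
open Set Filter Manifold Bundle

namespace Claimed.Agent.R213

noncomputable section

variable {n : ℕ} {M : Type*} [MetricSpace M] [ChartedSpace (WeakMTW.Model n) M]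
  [IsManifold (WeakMTW.model n) ∞ M]
  [RiemannianBundle (fun x : M => TangentSpace (WeakMTW.model n) x)]
variable {NF : ∀ x : M, TangentSpace (WeakMTW.model n) x → Prop}
  {H : ∀ x : M, TangentSpace (WeakMTW.model n) x → TangentSpace (WeakMTW.model n) x → ℝ}

/-- elementary inequality behind (R6). -/
theorem lemS_r6 (a b t : ℝ) (ht0 : 0 < t) (ht1 : t < 1) :
    (a + (1 - t) * b) ^ 2 ≤ a ^ 2 / t + (1 - t) * b ^ 2 := by
  have h : t * (a + (1 - t) * b) ^ 2 ≤ a ^ 2 + t * ((1 - t) * b ^ 2) := by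
    nlinarith [mul_nonneg (sub_nonneg.2 ht1.le) (sq_nonneg (a - t * b))]
  have h2 : a ^ 2 / t + (1 - t) * b ^ 2 = (a ^ 2 + t * ((1 - t) * b ^ 2)) / t := by
    field_simp
  rw [h2, le_div_iff₀ ht0]
  linarith

/-- `t • Ibar ⊆ injectivityDomain` for `0 < t < 1`. -/
theorem lemS_mem_inj (x : M) (p : TangentSpace (WeakMTW.model n) x) (hp : p ∈ Ibar x)
    (t : ℝ) (ht0 : 0 < t) (ht1 : t < 1) : t • p ∈ WeakMTW.injectivityDomain x := by
  refine ⟨1 / t, by rw [lt_div_iff₀ ht0]; linarith, ?_⟩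
  rw [smul_smul, one_div, inv_mul_cancel₀ ht0.ne', one_smul, norm_smul, Real.norm_eq_abs,
    abs_of_pos ht0, ← mul_assoc, inv_mul_cancel₀ ht0.ne', one_mul]
  exact hp

/-- honest support, rescaled by `t`. -/
theorem lemS_support (hS : Soft NF H) (h1 : StmtSupport n M) (P : Pot M) (x : M)
    (p : TangentSpace (WeakMTW.model n) x) (hp : p ∈ P.Hon x) (t : ℝ) (ht0 : 0 < t) (ht1 : t < 1)
    (x' : M) :
    P.phi x + (‖t • p‖ ^ 2 / 2 - cst x' (WeakMTW.exp x (t • p))) / t ≤ P.phi x' := by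
  obtain ⟨hI, hsup⟩ := h1 P x p hp
  have h := hsup x'
  have hray := hS.ray x p hI t 1 ht0.le ht1.le le_rfl
  rw [one_smul] at hray
  have hI' : dist x (WeakMTW.exp x p) = ‖p‖ := hI
  have htri : dist x' (WeakMTW.exp x p) ≤
      dist x' (WeakMTW.exp x (t • p)) + (1 - t) * ‖p‖ := by
    rw [← hray]; exact dist_triangle _ _ _
  have h6 := lemS_r6 (dist x' (WeakMTW.exp x (t • p))) ‖p‖ t ht0 ht1
  have hsq : dist x' (WeakMTW.exp x p) ^ 2 ≤
      (dist x' (WeakMTW.exp x (t • p)) + (1 - t) * ‖p‖) ^ 2 :=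
    pow_le_pow_left₀ dist_nonneg htri 2
  have hn : ‖t • p‖ = t * ‖p‖ := by rw [norm_smul, Real.norm_eq_abs, abs_of_pos ht0]
  unfold cst at h ⊢
  rw [hI'] at h
  rw [hn]
  have e1 : ((t * ‖p‖) ^ 2 / 2 - dist x' (WeakMTW.exp x (t • p)) ^ 2 / 2) / t =
      t * ‖p‖ ^ 2 / 2 - dist x' (WeakMTW.exp x (t • p)) ^ 2 / t / 2 := by
    field_simp
  rw [e1]
  linarith

/-- Taylor upper bound of the cost through a branch. -/
theorem lemS_cost_le (hS : Soft NF H) {x0 : M} {u0 : TangentSpace (WeakMTW.model n) x0}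
    {W : ∀ x' : M, M → TangentSpace (WeakMTW.model n) x'} {U U₀ V : Set M}
    {N : Set (TangentBundle (WeakMTW.model n) M)} {C r : ℝ}
    (hB : IsBranch H x0 u0 W U U₀ V N C r)
    (x : M) (v e : TangentSpace (WeakMTW.model n) x) (hv : mk x v ∈ N) (he : ‖e‖ < r) :
    cst (WeakMTW.exp x e) (WeakMTW.exp x v) ≤
      ‖v‖ ^ 2 / 2 - inner ℝ v e + H x v e / 2 + C * ‖e‖ ^ 3 := by
  obtain ⟨hx, hy, hW⟩ := hB.W_exp (mk x v) hv
  change x ∈ U₀ at hx
  change WeakMTW.exp x v ∈ V at hy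
  change W x (WeakMTW.exp x v) = v at hW
  obtain ⟨hU, ht⟩ := hB.taylor x hx _ hy e he
  rw [hW] at ht
  have h3 := hB.exp_W _ hU _ hy
  have h4 := hS.dist_exp_le (WeakMTW.exp x e) (W (WeakMTW.exp x e) (WeakMTW.exp x v))
  rw [h3] at h4
  have h5 : dist (WeakMTW.exp x e) (WeakMTW.exp x v) ^ 2 ≤
      ‖W (WeakMTW.exp x e) (WeakMTW.exp x v)‖ ^ 2 := pow_le_pow_left₀ dist_nonneg h4 2
  have h6 := (abs_le.1 ht).2
  unfold cst
  linarith

/-- Taylor lower bound of a branch. -/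
theorem lemS_branch_ge {x0 : M} {u0 : TangentSpace (WeakMTW.model n) x0}
    {W : ∀ x' : M, M → TangentSpace (WeakMTW.model n) x'} {U U₀ V : Set M}
    {N : Set (TangentBundle (WeakMTW.model n) M)} {C r : ℝ}
    (hB : IsBranch H x0 u0 W U U₀ V N C r)
    (x : M) (v e : TangentSpace (WeakMTW.model n) x) (hv : mk x v ∈ N) (he : ‖e‖ < r) :
    ‖W x (WeakMTW.exp x v)‖ ^ 2 / 2 - inner ℝ v e + H x v e / 2 - C * ‖e‖ ^ 3 ≤
      ‖W (WeakMTW.exp x e) (WeakMTW.exp x v)‖ ^ 2 / 2 := by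
  obtain ⟨hx, hy, hW⟩ := hB.W_exp (mk x v) hv
  change x ∈ U₀ at hx
  change WeakMTW.exp x v ∈ V at hy
  change W x (WeakMTW.exp x v) = v at hW
  obtain ⟨hU, ht⟩ := hB.taylor x hx _ hy e he
  rw [hW] at ht ⊢
  have h6 := (abs_le.1 ht).1
  linarith

/-- the inequality `(*_i)` divided by `d`. -/
theorem lemS_pointwise (hS : Soft NF H) (h1 : StmtSupport n M) (P : Pot M)
    {xl : M} {ul : TangentSpace (WeakMTW.model n) xl}
    {W : ∀ x' : M, M → TangentSpace (WeakMTW.model n) x'} {U U₀ V : Set M}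
    {N : Set (TangentBundle (WeakMTW.model n) M)} {C r : ℝ}
    (hB : IsBranch H xl ul W U U₀ V N C r)
    {vl : TangentSpace (WeakMTW.model n) xl}
    {W' : ∀ x' : M, M → TangentSpace (WeakMTW.model n) x'} {U' U₀' V' : Set M}
    {N' : Set (TangentBundle (WeakMTW.model n) M)} {C' r' : ℝ}
    (hB' : IsBranch H xl vl W' U' U₀' V' N' C' r')
    (x : M) (p u ê : TangentSpace (WeakMTW.model n) x) (hp : p ∈ P.Hon x)
    (t : ℝ) (ht0 : 0 < t) (ht1 : t < 1) (s : ℝ) (hs : 0 ≤ s) (d : ℝ) (hd : 0 < d)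
    (hn : ‖ê‖ = 1) (hdr : d < r) (hdr' : d < r') (hu : mk x u ∈ N) (hp' : mk x (t • p) ∈ N')
    (hom1 : H x u (d • ê) = d ^ 2 * H x u ê)
    (hom2 : H x (t • p) (d • ê) = d ^ 2 * H x (t • p) ê) (c0 : ℝ)
    (hfail : s * P.phi (WeakMTW.exp x (d • ê)) +
        ‖W (WeakMTW.exp x (d • ê)) (WeakMTW.exp x u)‖ ^ 2 / 2 <
      s * P.phi x + ‖W x (WeakMTW.exp x u)‖ ^ 2 / 2 + c0 * d ^ 2) :
    s * inner ℝ p ê - inner ℝ u ê + d / 2 * (H x u ê - s / t * H x (t • p) ê)
      - (C + s / t * C') * d ^ 2 < c0 * d := by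
  have hne : ‖d • ê‖ = d := by rw [norm_smul, hn, mul_one, Real.norm_eq_abs, abs_of_pos hd]
  have a1 := lemS_support hS h1 P x p hp t ht0 ht1 (WeakMTW.exp x (d • ê))
  have a2 := lemS_cost_le hS hB' x (t • p) (d • ê) hp' (by rw [hne]; exact hdr')
  have a3 := lemS_branch_ge hB x u (d • ê) hu (by rw [hne]; exact hdr)
  rw [hne, hom2, inner_smul_left, inner_smul_right] at a2
  rw [hne, hom1, inner_smul_right] at a3
  simp only [conj_trivial] at a2
  set X : ℝ := inner ℝ p ê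
  set Y : ℝ := inner ℝ u ê
  set A : ℝ := H x u ê
  set B : ℝ := H x (t • p) ê
  set φ' : ℝ := P.phi (WeakMTW.exp x (d • ê))
  set φ0 : ℝ := P.phi x
  set G' : ℝ := ‖W (WeakMTW.exp x (d • ê)) (WeakMTW.exp x u)‖ ^ 2 / 2
  set G0 : ℝ := ‖W x (WeakMTW.exp x u)‖ ^ 2 / 2
  set c' : ℝ := cst (WeakMTW.exp x (d • ê)) (WeakMTW.exp x (t • p))
  set q : ℝ := ‖t • p‖ ^ 2 / 2
  have b1 : (t * (d * X) - d ^ 2 * B / 2 - C' * d ^ 3) / t ≤ (q - c') / t :=
    div_le_div_of_nonneg_right (by linarith) ht0.le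
  have b2 : s * ((t * (d * X) - d ^ 2 * B / 2 - C' * d ^ 3) / t) ≤ s * (φ' - φ0) :=
    mul_le_mul_of_nonneg_left (by linarith) hs
  have key : d * (s * X - Y + d / 2 * (A - s / t * B) - (C + s / t * C') * d ^ 2) <
      d * (c0 * d) := by
    have e1 : d * (s * X - Y + d / 2 * (A - s / t * B) - (C + s / t * C') * d ^ 2) =
        s * ((t * (d * X) - d ^ 2 * B / 2 - C' * d ^ 3) / t) +
          (- (d * Y) + d ^ 2 * A / 2 - C * d ^ 3) := by
      field_simp
      ring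
    rw [e1]
    nlinarith
  exact lt_of_mul_lt_mul_left key hd.le

/-- subsequences of convergent representations. -/
theorem lemS_convRepr_comp {P : Pot M} {x : ℕ → M} {xl : M}
    {lam : ℕ → Fin (n + 1) → ℝ} {laml : Fin (n + 1) → ℝ}
    {w : ∀ k, Fin (n + 1) → TangentSpace (WeakMTW.model n) (x k)}
    {wl : Fin (n + 1) → TangentSpace (WeakMTW.model n) xl}
    (hR : ConvRepr P x xl lam laml w wl) (ψ : ℕ → ℕ) (hψ : Tendsto ψ atTop atTop) :
    ConvRepr P (fun j => x (ψ j)) xl (fun j => lam (ψ j)) laml (fun j => w (ψ j)) wl where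
  hx := hR.hx.comp hψ
  lam_nonneg := fun k i => hR.lam_nonneg _ i
  lam_sum := fun k => hR.lam_sum _
  w_mem := fun k i => hR.w_mem _ i
  lam_tendsto := fun i => (hR.lam_tendsto i).comp hψ
  w_tendsto := fun i => (hR.w_tendsto i).comp hψ

/-- the blow-up argument, after all extractions. -/
theorem lemS_core (hS : Soft NF H) (h1 : StmtSupport n M) (h2 : StmtReprLim n M)
    (h3 : StmtMargin H) (h4 : StmtNFK NF)
    (P : Pot M) (S : ℝ) (hS0 : 0 ≤ S) (hS1 : S < 1) (hG : P.Good n S)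
    (x : ℕ → M) (xl : M) (lam : ℕ → Fin (n + 1) → ℝ) (laml : Fin (n + 1) → ℝ)
    (w : ∀ k, Fin (n + 1) → TangentSpace (WeakMTW.model n) (x k))
    (wl : Fin (n + 1) → TangentSpace (WeakMTW.model n) xl) (s : ℕ → ℝ)
    (hR : ConvRepr P x xl lam laml w wl) (hs : Tendsto s atTop (𝓝 S)) (hs0 : ∀ k, 0 ≤ s k)
    (W : ∀ x' : M, M → TangentSpace (WeakMTW.model n) x') (U U₀ V : Set M)
    (N : Set (TangentBundle (WeakMTW.model n) M)) (C r : ℝ)
    (hB : IsBranch H xl (S • ∑ i, laml i • wl i) W U U₀ V N C r)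
    (d : ℕ → ℝ) (hd0 : ∀ k, 0 < d k) (hd : Tendsto d atTop (𝓝 0))
    (ê : ∀ k, TangentSpace (WeakMTW.model n) (x k)) (êl : TangentSpace (WeakMTW.model n) xl)
    (hê : Tendsto (fun k => mk (x k) (ê k)) atTop (𝓝 (mk xl êl))) (hn : ∀ k, ‖ê k‖ = 1)
    (hfail : ∀ k, s k * P.phi (WeakMTW.exp (x k) (d k • ê k)) +
        ‖W (WeakMTW.exp (x k) (d k • ê k))
          (WeakMTW.exp (x k) (s k • ∑ i, lam k i • w k i))‖ ^ 2 / 2 <
      s k * P.phi (x k) + ‖W (x k) (WeakMTW.exp (x k) (s k • ∑ i, lam k i • w k i))‖ ^ 2 / 2 +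
        (1 - S / ((1 + S) / 2)) / 4 * d k ^ 2) : False := by
  set t : ℝ := (1 + S) / 2 with ht
  have ht0 : 0 < t := by rw [ht]; linarith
  have ht1 : t < 1 := by rw [ht]; linarith
  have hSt : S < t := by rw [ht]; linarith
  set c0 : ℝ := (1 - S / t) / 4 with hc0
  obtain ⟨hl0, hl1, hwl, hpl, hlim⟩ := h2 P x xl lam laml w wl hR
  have hu := hlim s S hs
  have hNFu : NF xl (S • ∑ i, laml i • wl i) := h4 P S hS0 hS1 hG xl _ hpl
  have hNFi : ∀ i, NF xl (t • wl i) := fun i =>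
    hS.nf_of_mem _ _ (lemS_mem_inj xl (wl i) (h1 P xl _ (hwl i)).1 t ht0 ht1)
  choose Wi Ui U0i Vi Ni Ci ri hBi using fun i => hS.branch xl (t • wl i) (hNFi i)
  have htw : ∀ i, Tendsto (fun k => mk (x k) (t • w k i)) atTop (𝓝 (mk xl (t • wl i))) := by
    intro i
    have := hS.lin x xl (fun k => w k i) (fun k => w k i) (wl i) (wl i) (fun _ => t)
      (fun _ => 0) t 0 (hR.w_tendsto i) (hR.w_tendsto i) tendsto_const_nhds tendsto_const_nhds
    simpa using this
  -- the scalar sequences and their limits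
  have hA : Tendsto (fun k => H (x k) (s k • ∑ i, lam k i • w k i) (ê k)) atTop
      (𝓝 (H xl (S • ∑ i, laml i • wl i) êl)) := hS.cont_H x xl _ ê _ êl hNFu hu hê
  have hBl : ∀ i, Tendsto (fun k => H (x k) (t • w k i) (ê k)) atTop
      (𝓝 (H xl (t • wl i) êl)) := fun i => hS.cont_H x xl _ ê _ êl (hNFi i) (htw i) hê
  have hX : ∀ i, Tendsto (fun k => (inner ℝ (w k i) (ê k) : ℝ)) atTop
      (𝓝 (inner ℝ (wl i) êl)) := fun i => hS.cont_inner x xl _ ê _ êl (hR.w_tendsto i) hê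
  have hY : Tendsto (fun k => (inner ℝ (s k • ∑ i, lam k i • w k i) (ê k) : ℝ)) atTop
      (𝓝 (inner ℝ (S • ∑ i, laml i • wl i) êl)) := hS.cont_inner x xl _ ê _ êl hu hê
  have hYk : ∀ k, (inner ℝ (s k • ∑ i, lam k i • w k i) (ê k) : ℝ) =
      s k * ∑ i, lam k i * inner ℝ (w k i) (ê k) := by
    intro k
    rw [inner_smul_left, sum_inner]
    simp only [inner_smul_left, conj_trivial]
  have hYl : (inner ℝ (S • ∑ i, laml i • wl i) êl : ℝ) =
      S * ∑ i, laml i * inner ℝ (wl i) êl := by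
    rw [inner_smul_left, sum_inner]
    simp only [inner_smul_left, conj_trivial]
  have hnl : ‖êl‖ = 1 := by
    have h5 : Tendsto (fun k => ‖(mk (x k) (ê k)).2‖) atTop (𝓝 ‖(mk xl êl).2‖) :=
      Tendsto.comp (f := fun k => mk (x k) (ê k))
        (g := fun p : TangentBundle (WeakMTW.model n) M => ‖p.2‖)
        (hS.cont_norm.tendsto (mk xl êl)) hê
    have h6 : Tendsto (fun _ : ℕ => (1 : ℝ)) atTop (𝓝 ‖êl‖) := by
      refine h5.congr fun k => ?_
      exact hn k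
    exact tendsto_nhds_unique h6 tendsto_const_nhds
  -- eventually everything is in the domains of the branches
  have hev : ∀ᶠ k in atTop, (mk (x k) (s k • ∑ i, lam k i • w k i) ∈ N ∧ d k < r) ∧
      ∀ i, (mk (x k) (t • w k i) ∈ Ni i ∧ d k < ri i) := by
    refine ((hu.eventually_mem hB.hN).and (hd.eventually (Iio_mem_nhds hB.hr))).and ?_
    rw [Filter.eventually_all]
    intro i
    exact ((htw i).eventually_mem (hBi i).hN).and (hd.eventually (Iio_mem_nhds (hBi i).hr))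
  have hpt : ∀ᶠ k in atTop, ∀ i,
      s k * inner ℝ (w k i) (ê k) - inner ℝ (s k • ∑ i, lam k i • w k i) (ê k) +
        d k / 2 * (H (x k) (s k • ∑ i, lam k i • w k i) (ê k) -
          s k / t * H (x k) (t • w k i) (ê k)) - (C + s k / t * Ci i) * d k ^ 2 < c0 * d k := by
    filter_upwards [hev] with k hk i
    obtain ⟨⟨hkN, hkr⟩, hki⟩ := hk
    obtain ⟨hkNi, hkri⟩ := hki i
    have hom1 : H (x k) (s k • ∑ i, lam k i • w k i) (d k • ê k) =
        d k ^ 2 * H (x k) (s k • ∑ i, lam k i • w k i) (ê k) := by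
      obtain ⟨hx0, hyV, hWe⟩ := hB.W_exp _ hkN
      change x k ∈ U₀ at hx0
      change WeakMTW.exp (x k) (s k • ∑ i, lam k i • w k i) ∈ V at hyV
      change W (x k) (WeakMTW.exp (x k) (s k • ∑ i, lam k i • w k i)) =
        s k • ∑ i, lam k i • w k i at hWe
      have := hB.hom (x k) (hB.hUU hx0) _ hyV (ê k) (d k)
      rwa [hWe] at this
    have hom2 := hS.hom_H (x k) (t • w k i) (ê k) (d k) (hS.nf_of_mem _ _
      (lemS_mem_inj (x k) (w k i) (h1 P _ _ (hR.w_mem k i)).1 t ht0 ht1))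
    exact lemS_pointwise hS h1 P hB (hBi i) (x k) (w k i) _ (ê k) (hR.w_mem k i) t ht0 ht1
      (s k) (hs0 k) (d k) (hd0 k) (hn k) hkr hkri hkN hkNi hom1 hom2 _ (hfail k)
  -- first order
  have hfirst : ∀ i, S * inner ℝ (wl i) êl - inner ℝ (S • ∑ i, laml i • wl i) êl ≤ (0 : ℝ) := by
    intro i
    have hL : Tendsto (fun k => s k * inner ℝ (w k i) (ê k) -
        inner ℝ (s k • ∑ i, lam k i • w k i) (ê k) +
        d k / 2 * (H (x k) (s k • ∑ i, lam k i • w k i) (ê k) -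
          s k / t * H (x k) (t • w k i) (ê k)) - (C + s k / t * Ci i) * d k ^ 2) atTop
        (𝓝 (S * inner ℝ (wl i) êl - inner ℝ (S • ∑ i, laml i • wl i) êl +
          0 / 2 * (H xl (S • ∑ i, laml i • wl i) êl - S / t * H xl (t • wl i) êl) -
          (C + S / t * Ci i) * 0 ^ 2)) :=
      (((hs.mul (hX i)).sub hY).add ((hd.div_const 2).mul
        (hA.sub ((hs.div_const t).mul (hBl i))))).sub
        ((tendsto_const_nhds.add ((hs.div_const t).mul tendsto_const_nhds)).mul (hd.pow 2))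
    have hRr : Tendsto (fun k => c0 * d k) atTop (𝓝 (c0 * 0)) := tendsto_const_nhds.mul hd
    have := le_of_tendsto_of_tendsto hL hRr (hpt.mono fun k hk => (hk i).le)
    simpa using this
  -- orthogonality on the active face
  have horth : ∀ i, laml i ≠ 0 →
      S * inner ℝ (wl i) êl = (inner ℝ (S • ∑ i, laml i • wl i) êl : ℝ) := by
    have hsum : ∑ i, laml i * (S * inner ℝ (wl i) êl -
        inner ℝ (S • ∑ i, laml i • wl i) êl) = (0 : ℝ) := by
      simp only [mul_sub, Finset.sum_sub_distrib, ← Finset.sum_mul, hl1, one_mul]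
      rw [hYl, Finset.mul_sum, sub_eq_zero]
      refine Finset.sum_congr rfl fun i _ => ?_
      ring
    have hz := (Finset.sum_eq_zero_iff_of_nonpos (fun i _ =>
      mul_nonpos_of_nonneg_of_nonpos (hl0 i) (hfirst i))).1 hsum
    intro i hi
    have := hz i (Finset.mem_univ i)
    rcases mul_eq_zero.1 this with h | h
    · exact absurd h hi
    · linarith
  -- the margin
  have hmargin := h3 P S t hS0 hSt ht1 hG xl laml wl êl hl0 hl1 hwl (by
    intro i hi
    rw [real_inner_comm, real_inner_comm _ êl, inner_smul_left, conj_trivial]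
    exact horth i hi)
  rw [hnl] at hmargin
  -- second order
  have hsecond : ∀ᶠ k in atTop,
      1 / 2 * (H (x k) (s k • ∑ i, lam k i • w k i) (ê k) -
          s k / t * ∑ i, lam k i * H (x k) (t • w k i) (ê k)) -
        (C + s k / t * ∑ i, lam k i * Ci i) * d k ≤ c0 := by
    filter_upwards [hpt] with k hk
    have hsum : ∑ i, lam k i * (s k * inner ℝ (w k i) (ê k) -
        inner ℝ (s k • ∑ i, lam k i • w k i) (ê k) +
        d k / 2 * (H (x k) (s k • ∑ i, lam k i • w k i) (ê k) -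
          s k / t * H (x k) (t • w k i) (ê k)) - (C + s k / t * Ci i) * d k ^ 2) ≤
        ∑ i, lam k i * (c0 * d k) :=
      Finset.sum_le_sum fun i _ => mul_le_mul_of_nonneg_left (hk i).le (hR.lam_nonneg k i)
    rw [← Finset.sum_mul, hR.lam_sum k, one_mul] at hsum
    set Yk : ℝ := inner ℝ (s k • ∑ i, lam k i • w k i) (ê k) with hYkdef
    set Ak : ℝ := H (x k) (s k • ∑ i, lam k i • w k i) (ê k)
    have e1 : ∑ i, lam k i * (s k * inner ℝ (w k i) (ê k) - Yk +
        d k / 2 * (Ak - s k / t * H (x k) (t • w k i) (ê k)) - (C + s k / t * Ci i) * d k ^ 2) =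
        d k * (1 / 2 * (Ak - s k / t * ∑ i, lam k i * H (x k) (t • w k i) (ê k)) -
        (C + s k / t * ∑ i, lam k i * Ci i) * d k) := by
      have e2 : ∀ i, lam k i * (s k * inner ℝ (w k i) (ê k) - Yk +
          d k / 2 * (Ak - s k / t * H (x k) (t • w k i) (ê k)) - (C + s k / t * Ci i) * d k ^ 2) =
          s k * (lam k i * inner ℝ (w k i) (ê k)) + lam k i * (- Yk + d k / 2 * Ak - C * d k ^ 2)
          - (d k / 2 * (s k / t)) * (lam k i * H (x k) (t • w k i) (ê k))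
          - (s k / t * d k ^ 2) * (lam k i * Ci i) := by
        intro i; ring
      simp only [e2, Finset.sum_sub_distrib, Finset.sum_add_distrib, ← Finset.mul_sum,
        ← Finset.sum_mul, hR.lam_sum k, one_mul]
      rw [← hYk k, ← hYkdef]
      ring
    rw [e1, mul_comm c0] at hsum
    exact le_of_mul_le_mul_left hsum (hd0 k)
  have hL2 : Tendsto (fun k => 1 / 2 * (H (x k) (s k • ∑ i, lam k i • w k i) (ê k) -
          s k / t * ∑ i, lam k i * H (x k) (t • w k i) (ê k)) -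
        (C + s k / t * ∑ i, lam k i * Ci i) * d k) atTop
      (𝓝 (1 / 2 * (H xl (S • ∑ i, laml i • wl i) êl -
          S / t * ∑ i, laml i * H xl (t • wl i) êl) -
        (C + S / t * ∑ i, laml i * Ci i) * 0)) :=
    (tendsto_const_nhds.mul (hA.sub ((hs.div_const t).mul
      (tendsto_finsetSum _ fun i _ => (hR.lam_tendsto i).mul (hBl i))))).sub
      ((tendsto_const_nhds.add ((hs.div_const t).mul
        (tendsto_finsetSum _ fun i _ => (hR.lam_tendsto i).mul tendsto_const_nhds))).mul hd)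
  have hfin := le_of_tendsto hL2 hsecond
  have hpos : 0 < 1 - S / t := by
    rw [sub_pos, div_lt_one ht0]; exact hSt
  rw [hc0] at hfin
  linarith

/-- **Lemma S**: uniform strict local minimum. -/
theorem stmtLemmaS (hS : Soft NF H) (h1 : StmtSupport n M) (h2 : StmtReprLim n M)
    (h3 : StmtMargin H) (h4 : StmtNFK NF) : StmtLemmaS H := by
  intro P S hS0 hS1 hG x xl lam laml w wl s hR hs hs0 W U U₀ V N C r hB
  have ht0 : 0 < (1 + S) / 2 := by linarith
  have hc0 : 0 < (1 - S / ((1 + S) / 2)) / 4 := by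
    have : S / ((1 + S) / 2) < 1 := by rw [div_lt_one ht0]; linarith
    linarith
  by_contra hcon
  push Not at hcon
  have hex : ∀ j : ℕ, ∃ k, j ≤ k ∧ ∃ x' : M, dist x' (x k) < 1 / ((j : ℝ) + 1) ∧
      s k * P.phi x' + ‖W x' (WeakMTW.exp (x k) (s k • ∑ i, lam k i • w k i))‖ ^ 2 / 2 <
      s k * P.phi (x k) +
        ‖W (x k) (WeakMTW.exp (x k) (s k • ∑ i, lam k i • w k i))‖ ^ 2 / 2 +
        (1 - S / ((1 + S) / 2)) / 4 * dist x' (x k) ^ 2 := by
    intro j
    have h := hcon _ (1 / ((j : ℝ) + 1)) hc0 (by positivity)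
    obtain ⟨k, hk, hjk⟩ := (h.and_eventually (eventually_ge_atTop j)).exists
    obtain ⟨x', hx', hlt⟩ := hk
    exact ⟨k, hjk, x', hx', hlt⟩
  choose κ hκ x' hx' hfail using hex
  have hκt : Tendsto κ atTop atTop := tendsto_atTop_mono hκ tendsto_id
  choose e he using fun j => hS.hopf_rinow (x (κ j)) (x' j)
  have hd0 : ∀ j, 0 < dist (x' j) (x (κ j)) := by
    intro j
    rcases (dist_nonneg (x := x' j) (y := x (κ j))).lt_or_eq with h | h
    · exact h
    · exfalso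
      have hxx : x' j = x (κ j) := dist_eq_zero.1 h.symm
      have hf := hfail j
      rw [hxx, dist_self] at hf
      simp at hf
  have hdt : Tendsto (fun j => dist (x' j) (x (κ j))) atTop (𝓝 0) := by
    refine squeeze_zero (fun j => dist_nonneg) (fun j => (hx' j).le) ?_
    exact tendsto_one_div_add_atTop_nhds_zero_nat
  have hen : ∀ j, ‖e j‖ = dist (x' j) (x (κ j)) := fun j => by rw [(he j).2, dist_comm]
  have hn : ∀ j, ‖(dist (x' j) (x (κ j)))⁻¹ • e j‖ = 1 := by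
    intro j
    rw [norm_smul, hen j, norm_inv, Real.norm_eq_abs, abs_of_pos (hd0 j),
      inv_mul_cancel₀ (hd0 j).ne']
  have hde : ∀ j, dist (x' j) (x (κ j)) • ((dist (x' j) (x (κ j)))⁻¹ • e j) = e j := by
    intro j
    rw [smul_smul, mul_inv_cancel₀ (hd0 j).ne', one_smul]
  obtain ⟨êl, φ, hφ, hlimê⟩ := hS.cpt (fun j => x (κ j)) xl
    (fun j => (dist (x' j) (x (κ j)))⁻¹ • e j) 1 (hR.hx.comp hκt) (fun j => (hn j).le)
  have hψ : Tendsto (fun j => κ (φ j)) atTop atTop := hκt.comp hφ.tendsto_atTop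
  refine lemS_core hS h1 h2 h3 h4 P S hS0 hS1 hG (fun j => x (κ (φ j))) xl
    (fun j => lam (κ (φ j))) laml (fun j => w (κ (φ j))) wl (fun j => s (κ (φ j)))
    (lemS_convRepr_comp hR _ hψ) (hs.comp hψ) (fun j => hs0 _) W U U₀ V N C r hB
    (fun j => dist (x' (φ j)) (x (κ (φ j)))) (fun j => hd0 _) (hdt.comp hφ.tendsto_atTop)
    (fun j => (dist (x' (φ j)) (x (κ (φ j))))⁻¹ • e (φ j)) êl hlimê (fun j => hn _) ?_
  intro j
  show s (κ (φ j)) * P.phi (WeakMTW.exp (x (κ (φ j)))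
      (dist (x' (φ j)) (x (κ (φ j))) • ((dist (x' (φ j)) (x (κ (φ j))))⁻¹ • e (φ j)))) +
      ‖W (WeakMTW.exp (x (κ (φ j)))
      (dist (x' (φ j)) (x (κ (φ j))) • ((dist (x' (φ j)) (x (κ (φ j))))⁻¹ • e (φ j)))) _‖ ^ 2 / 2 < _
  rw [hde (φ j), (he (φ j)).1]
  exact hfail (φ j)

end

end Claimed.Agent.R213
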