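import Claimed.Agent.R213.SoftDefs

/-!
# Row 213, SOFT layer: `AllGood` (continuous induction) and `MainConvexity`
-/

set_option autoImplicit false
open Claims Claims.C0370 Claims.C0370.WeakMTWGlobalSupport
open scoped Manifold ContDiff Topology
open Set Filter Manifold Bundle

namespace Claimed.Agent.R213

noncomputable section

variable {n : ℕ} {M : Type*} [MetricSpace M] [ChartedSpace (WeakMTW.Model n) M]
  [IsManifold (WeakMTW.model n) ∞ M]
  [RiemannianBundle (fun x : M => TangentSpace (WeakMTW.model n) x)]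

variable {NF : ∀ x : M, TangentSpace (WeakMTW.model n) x → Prop}
  {H : ∀ x : M, TangentSpace (WeakMTW.model n) x → TangentSpace (WeakMTW.model n) x → ℝ}

/-- `Good 0` holds trivially. -/
theorem softMain_good_zero (hS : Soft NF H) (P : Pot M) : P.Good n 0 := by
  intro x p _
  have h0 : WeakMTW.exp x ((0 : ℝ) • p) = x := by
    rw [zero_smul]; exact hS.exp_zero x
  refine ⟨?_, ?_⟩
  · show dist x (WeakMTW.exp x ((0 : ℝ) • p)) = ‖(0 : ℝ) • p‖
    rw [h0, zero_smul, dist_self, norm_zero]
  · intro x'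
    rw [h0]
    have h1 : cst x x = 0 := by simp [cst]
    have h2 : 0 ≤ cst x' x := by unfold cst; positivity
    rw [h1]; linarith

/-- Continuous induction: `Good s` for every `s ∈ [0,1)`. -/
theorem stmtAllGood (hS : Soft NF H) (hC : StmtClosed n M) (hO : StmtOpen n M) :
    StmtAllGood n M := by
  intro P s hs0 hs1
  have key : Icc (0 : ℝ) s ⊆ {t : ℝ | P.Good n t} := by
    apply IsClosed.Icc_subset_of_forall_mem_nhdsWithin
    · exact (hC P).inter isClosed_Icc
    · exact softMain_good_zero hS P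
    · rintro t ⟨ht, ht0, hts⟩
      exact hO P t ht0 (lt_trans hts hs1) ht
  exact key ⟨hs0, le_rfl⟩

/-- shrinking a minimising velocity. -/
theorem softMain_smul_mem_Ibar (hS : Soft NF H) (x : M) (v : TangentSpace (WeakMTW.model n) x)
    (hv : v ∈ Ibar x) (t : ℝ) (ht0 : 0 ≤ t) (ht1 : t ≤ 1) : t • v ∈ Ibar x := by
  have h := hS.ray x v hv 0 t le_rfl ht0 ht1
  rw [zero_smul, hS.exp_zero x, sub_zero] at h
  show dist x (WeakMTW.exp x (t • v)) = ‖t • v‖
  rw [h, norm_smul, Real.norm_eq_abs, abs_of_nonneg ht0]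

/-- `MainConvexity` from `AllGood`. -/
theorem mainConvexity_of_allGood (hS : Soft NF H) (h : StmtAllGood n M) :
    WeakMTW.MainConvexity (n := n) (M := M) := by
  intro x a ha b hb c d hc hd hcd
  obtain ⟨al, hal1, hal⟩ := ha
  obtain ⟨be, hbe1, hbe⟩ := hb
  set ga : ℝ := min al be with hga
  have hga1 : 1 < ga := lt_min hal1 hbe1
  have hga0 : 0 < ga := lt_trans one_pos hga1
  have hal0 : 0 < al := lt_trans one_pos hal1
  have hbe0 : 0 < be := lt_trans one_pos hbe1
  -- `ga a` and `ga b` are minimising velocities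
  have hA : ga • a ∈ Ibar x := by
    have h1 : al • a ∈ Ibar x := by
      show dist x (WeakMTW.exp x (al • a)) = ‖al • a‖
      rw [hal, norm_smul, Real.norm_eq_abs, abs_of_pos hal0]
    have h2 := softMain_smul_mem_Ibar hS x (al • a) h1 (ga / al) (by positivity)
      ((div_le_one hal0).2 (min_le_left _ _))
    rwa [smul_smul, div_mul_cancel₀ _ hal0.ne'] at h2
  have hB : ga • b ∈ Ibar x := by
    have h1 : be • b ∈ Ibar x := by
      show dist x (WeakMTW.exp x (be • b)) = ‖be • b‖
      rw [hbe, norm_smul, Real.norm_eq_abs, abs_of_pos hbe0]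
    have h2 := softMain_smul_mem_Ibar hS x (be • b) h1 (ga / be) (by positivity)
      ((div_le_one hbe0).2 (min_le_right _ _))
    rwa [smul_smul, div_mul_cancel₀ _ hbe0.ne'] at h2
  -- the potential
  let P : Pot M :=
    { y₁ := WeakMTW.exp x (ga • a)
      y₂ := WeakMTW.exp x (ga • b)
      h₁ := cst x (WeakMTW.exp x (ga • a))
      h₂ := cst x (WeakMTW.exp x (ga • b)) }
  have hm1 : P.m₁ x = 0 := by simp [Pot.m₁, P, cst]
  have hm2 : P.m₂ x = 0 := by simp [Pot.m₂, P, cst]
  have hphi : P.phi x = 0 := by simp [Pot.phi, hm1, hm2]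
  have hHa : ga • a ∈ P.Hon x := Or.inl ⟨by rw [hm1, hphi], rfl, hA.symm⟩
  have hHb : ga • b ∈ P.Hon x := Or.inr ⟨by rw [hm2, hphi], rfl, hB.symm⟩
  have hK : c • (ga • a) + d • (ga • b) ∈ P.K x :=
    (convex_convexHull ℝ (P.Hon x)) (subset_convexHull ℝ _ hHa) (subset_convexHull ℝ _ hHb)
      hc hd hcd
  -- choose `s`
  set s : ℝ := (1 / ga + 1) / 2 with hs
  have hinv : 1 / ga < 1 := by rw [div_lt_one hga0]; exact hga1
  have hinv0 : 0 < 1 / ga := by positivity
  have hs1 : s < 1 := by rw [hs]; linarith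
  have hs0 : 0 ≤ s := by rw [hs]; linarith
  have hsg : 1 < s * ga := by
    have : 1 / ga < s := by rw [hs]; linarith
    rwa [div_lt_iff₀ hga0] at this
  have hG := (h P s hs0 hs1 x _ hK).1
  have hrew : s • (c • (ga • a) + d • (ga • b)) = (s * ga) • (c • a + d • b) := by
    simp only [smul_add, smul_smul]
    congr 1 <;> congr 1 <;> ring
  rw [hrew] at hG
  refine ⟨s * ga, hsg, ?_⟩
  have hG' : dist x (WeakMTW.exp x ((s * ga) • (c • a + d • b))) =
      ‖(s * ga) • (c • a + d • b)‖ := hG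
  rw [hG', norm_smul, Real.norm_eq_abs, abs_of_pos (lt_trans one_pos hsg)]

end

end Claimed.Agent.R213
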