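import Claimed.Agent.R213.SoftDefs

/-!
# Row 213, SOFT layer: `S K(x)` is nonfocal, and the margin `D ≥ 1 - S/t`
-/

set_option autoImplicit false
set_option linter.unusedSectionVars false
open Claims Claims.C0370 Claims.C0370.WeakMTWGlobalSupport
open scoped Manifold ContDiff Topology
open Set Filter Manifold Bundle

namespace Claimed.Agent.R213

noncomputable section

variable {n : ℕ} {M : Type*} [MetricSpace M] [ChartedSpace (WeakMTW.Model n) M]
  [IsManifold (WeakMTW.model n) ∞ M]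
  [RiemannianBundle (fun x : M => TangentSpace (WeakMTW.model n) x)]

variable {NF : ∀ x : M, TangentSpace (WeakMTW.model n) x → Prop}
  {H : ∀ x : M, TangentSpace (WeakMTW.model n) x → TangentSpace (WeakMTW.model n) x → ℝ}

namespace NFK

/-- honest velocities are minimising. -/
theorem hon_mem_Ibar (P : Pot M) (x : M) (w : TangentSpace (WeakMTW.model n) x)
    (hw : w ∈ P.Hon x) : w ∈ Ibar x := by
  rcases hw with ⟨_, h1, h2⟩ | ⟨_, h1, h2⟩
  · show dist x (WeakMTW.exp x w) = ‖w‖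
    rw [h1, h2]
  · show dist x (WeakMTW.exp x w) = ‖w‖
    rw [h1, h2]

/-- `θ Ibar ⊆ I` for `0 ≤ θ < 1`. -/
theorem smul_mem_injDom (hS : Soft NF H) (x : M) (v : TangentSpace (WeakMTW.model n) x)
    (hv : v ∈ Ibar x) (θ : ℝ) (h0 : 0 ≤ θ) (h1 : θ < 1) :
    θ • v ∈ WeakMTW.injectivityDomain x := by
  rcases h0.eq_or_lt with h | h
  · refine ⟨2, by norm_num, ?_⟩
    rw [← h]
    simp [hS.exp_zero]
  · refine ⟨1 / θ, by rw [lt_div_iff₀ h]; linarith, ?_⟩
    have e1 : (1 / θ) • θ • v = v := by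
      rw [smul_smul, one_div, inv_mul_cancel₀ h.ne', one_smul]
    rw [e1, norm_smul, Real.norm_eq_abs, abs_of_pos h]
    have : dist x (WeakMTW.exp x v) = ‖v‖ := hv
    rw [this]
    field_simp

end NFK

open NFK in
theorem stmtNFK (hS : Soft NF H) : StmtNFK NF := by
  intro P S hS0 hS1 hG x p hp
  have key : P.K x ⊆ {q | q ∈ P.K x ∧ NF x (S • q)} := by
    refine convexHull_min ?_ ?_
    · intro w hw
      exact ⟨subset_convexHull ℝ _ hw,
        hS.nf_of_mem x _ (smul_mem_injDom hS x w (hon_mem_Ibar P x w hw) S hS0 hS1)⟩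
    · intro a ha b hb l m hl hm hlm
      have hK : Convex ℝ (P.K (n := n) x) := convex_convexHull ℝ _
      refine ⟨hK ha.1 hb.1 hl hm hlm, ?_⟩
      have hl' : l = 1 - m := by linarith
      subst hl'
      have := hS.focal x (S • a) (S • b) ha.2 hb.2 (by
        intro r hr0 hr1
        have hmem : (1 - r) • a + r • b ∈ P.K x :=
          hK ha.1 hb.1 (by linarith) hr0 (by ring)
        have := (hG x _ hmem).1
        rwa [smul_add, smul_comm S (1 - r) a, smul_comm S r b] at this) m hm (by linarith)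
      rwa [smul_add, smul_comm S (1 - m) a, smul_comm S m b]
  exact (key hp).2

namespace NFK

/-- constant base point: scalar multiples converge in the tangent bundle. -/
theorem tendsto_mk_smul (hS : Soft NF H) (x : M) (v : TangentSpace (WeakMTW.model n) x)
    (a : ℕ → ℝ) (al : ℝ) (ha : Tendsto a atTop (𝓝 al)) :
    Tendsto (fun k => mk x (a k • v)) atTop (𝓝 (mk x (al • v))) := by
  have := hS.lin (fun _ => x) x (fun _ => v) (fun _ => v) v v a (fun _ => 0) al 0
    tendsto_const_nhds tendsto_const_nhds ha tendsto_const_nhds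
  simpa using this

/-- Jensen on `θ S conv{w_i : lam_i ≠ 0}`. -/
theorem jensen_theta (hS : Soft NF H) (P : Pot M) (S : ℝ) (hG : P.Good n S) (x : M)
    (lam : Fin (n + 1) → ℝ) (w : Fin (n + 1) → TangentSpace (WeakMTW.model n) x)
    (e : TangentSpace (WeakMTW.model n) x)
    (hlam : ∀ i, 0 ≤ lam i) (hsum : ∑ i, lam i = 1) (hw : ∀ i, w i ∈ P.Hon x)
    (horth : ∀ i, lam i ≠ 0 → inner ℝ e (S • w i) = inner ℝ e (S • ∑ j, lam j • w j))
    (θ : ℝ) (h0 : 0 ≤ θ) (h1 : θ < 1) :
    ∑ i, lam i * H x ((θ * S) • w i) e ≤ H x ((θ * S) • ∑ j, lam j • w j) e := by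
  classical
  set c : ℝ := inner ℝ e (S • ∑ j, lam j • w j) with hc
  have hK : Convex ℝ (P.K (n := n) x) := convex_convexHull ℝ _
  let s : Set (TangentSpace (WeakMTW.model n) x) :=
    {v | (∃ q ∈ P.K x, v = (θ * S) • q) ∧ inner ℝ e v = θ * c}
  have hcomb : ∀ a ∈ s, ∀ b ∈ s, ∀ l m : ℝ, 0 ≤ l → 0 ≤ m → l + m = 1 → l • a + m • b ∈ s := by
    rintro a ⟨⟨qa, hqa, rfl⟩, ha⟩ b ⟨⟨qb, hqb, rfl⟩, hb⟩ l m hl hm hlm
    refine ⟨⟨l • qa + m • qb, hK hqa hqb hl hm hlm, ?_⟩, ?_⟩
    · rw [smul_add, smul_comm l, smul_comm m]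
    · rw [inner_add_right, inner_smul_right e _ l, inner_smul_right e _ m, ha, hb, ← add_mul, hlm,
        one_mul]
  have hdom : ∀ a ∈ s, a ∈ WeakMTW.injectivityDomain x := by
    rintro a ⟨⟨qa, hqa, rfl⟩, -⟩
    rw [mul_smul]
    exact smul_mem_injDom hS x _ (hG x qa hqa).1 θ h0 h1
  have hconc : ConcaveOn ℝ s (fun v => H x v e) := by
    refine ⟨fun a ha b hb l m hl hm hlm => hcomb a ha b hb l m hl hm hlm, ?_⟩
    intro a ha b hb l m hl hm hlm
    have hl' : l = 1 - m := by linarith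
    subst hl'
    have := hS.concave_H x a b e
      (fun r hr0 hr1 => hdom _ (hcomb a ha b hb (1 - r) r (by linarith) hr0 (by ring)))
      (by rw [inner_sub_right, ha.2, hb.2, sub_self]) m hm (by linarith)
    simpa [smul_eq_mul] using this
  have hJ := hconc.le_map_sum (t := Finset.univ.filter (fun i => lam i ≠ 0)) (w := lam)
    (p := fun i => (θ * S) • w i) (fun i _ => hlam i)
    (by rw [Finset.sum_filter_of_ne (fun i _ hi => hi)]; exact hsum)
    (by
      intro i hi
      have hi' : lam i ≠ 0 := (Finset.mem_filter.mp hi).2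
      refine ⟨⟨w i, subset_convexHull ℝ _ (hw i), rfl⟩, ?_⟩
      rw [mul_smul, inner_smul_right, horth i hi'])
  have e0 : ∑ i with lam i ≠ 0, lam i • H x ((θ * S) • w i) e =
      ∑ i, lam i • H x ((θ * S) • w i) e :=
    Finset.sum_filter_of_ne (fun i _ hi h => hi (by rw [h, zero_smul]))
  have e1 : ∑ i with lam i ≠ 0, lam i • (θ * S) • w i = ∑ i, lam i • (θ * S) • w i :=
    Finset.sum_filter_of_ne (fun i _ hi h => hi (by rw [h, zero_smul]))
  rw [e0, e1] at hJ
  have e2 : ∑ i, lam i • (θ * S) • w i = (θ * S) • ∑ j, lam j • w j := by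
    rw [Finset.smul_sum]
    exact Finset.sum_congr rfl (fun i _ => smul_comm _ _ _)
  rw [e2] at hJ
  simpa [smul_eq_mul] using hJ

end NFK

open NFK in
theorem stmtMargin (hS : Soft NF H) (h : StmtNFK NF) : StmtMargin H := by
  intro P S t hS0 hSt ht1 hG x lam w e hlam hsum hw horth
  have hS1 : S < 1 := hSt.trans ht1
  have ht0 : 0 < t := lt_of_le_of_lt hS0 hSt
  have hK : Convex ℝ (P.K (n := n) x) := convex_convexHull ℝ _
  have hwK : ∀ i, w i ∈ P.K x := fun i => subset_convexHull ℝ _ (hw i)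
  have hpK : (∑ j, lam j • w j) ∈ P.K x :=
    hK.sum_mem (fun i _ => hlam i) hsum (fun i _ => hwK i)
  -- the sequence `θ_k → 1`
  let θ : ℕ → ℝ := fun k => 1 - 1 / ((k : ℝ) + 1)
  have hθ0 : ∀ k, 0 ≤ θ k := by
    intro k
    have : 1 / ((k : ℝ) + 1) ≤ 1 := by
      rw [div_le_one (by positivity)]
      have : (0 : ℝ) ≤ k := Nat.cast_nonneg k
      linarith
    simp only [θ]; linarith
  have hθ1 : ∀ k, θ k < 1 := by
    intro k
    have : 0 < 1 / ((k : ℝ) + 1) := by positivity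
    simp only [θ]; linarith
  have hθ : Tendsto (fun k => θ k * S) atTop (𝓝 S) := by
    have h1 : Tendsto θ atTop (𝓝 (1 - 0)) :=
      tendsto_const_nhds.sub tendsto_one_div_add_atTop_nhds_zero_nat
    have := h1.mul_const S
    simpa using this
  have hlimR : Tendsto (fun k => H x ((θ k * S) • ∑ j, lam j • w j) e) atTop
      (𝓝 (H x (S • ∑ j, lam j • w j) e)) :=
    hS.cont_H (fun _ => x) x _ (fun _ => e) _ e (h P S hS0 hS1 hG x _ hpK)
      (tendsto_mk_smul hS x _ _ _ hθ) tendsto_const_nhds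
  have hlimL : Tendsto (fun k => ∑ i, lam i * H x ((θ k * S) • w i) e) atTop
      (𝓝 (∑ i, lam i * H x (S • w i) e)) := by
    refine tendsto_finsetSum _ (fun i _ => Tendsto.const_mul _ ?_)
    exact hS.cont_H (fun _ => x) x _ (fun _ => e) _ e (h P S hS0 hS1 hG x _ (hwK i))
      (tendsto_mk_smul hS x _ _ _ hθ) tendsto_const_nhds
  have hJ : ∑ i, lam i * H x (S • w i) e ≤ H x (S • ∑ j, lam j • w j) e :=
    le_of_tendsto_of_tendsto' hlimL hlimR
      (fun k => jensen_theta hS P S hG x lam w e hlam hsum hw horth (θ k) (hθ0 k) (hθ1 k))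
  have hrad : ∀ i, S / t * H x (t • w i) e + (1 - S / t) * ‖e‖ ^ 2 ≤ H x (S • w i) e :=
    fun i => hS.radial_H x (w i) e (hon_mem_Ibar P x _ (hw i)) S t hS0 hSt.le ht1 ht0
  have hsum2 : ∑ i, lam i * (S / t * H x (t • w i) e + (1 - S / t) * ‖e‖ ^ 2) ≤
      ∑ i, lam i * H x (S • w i) e :=
    Finset.sum_le_sum (fun i _ => mul_le_mul_of_nonneg_left (hrad i) (hlam i))
  have e3 : ∑ i, lam i * (S / t * H x (t • w i) e + (1 - S / t) * ‖e‖ ^ 2) =
      S / t * ∑ i, lam i * H x (t • w i) e + (1 - S / t) * ‖e‖ ^ 2 := by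
    simp only [mul_add, Finset.sum_add_distrib]
    rw [← Finset.sum_mul, hsum, one_mul, Finset.mul_sum]
    congr 1
    exact Finset.sum_congr rfl (fun i _ => by ring)
  linarith

end

end Claimed.Agent.R213
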