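import Claimed.Agent.R213.SoftDefs

/-!
# Row 213, SOFT layer: openness of `Good` to the right (msg 8484, cases A and B)
-/

set_option autoImplicit false
open Claims Claims.C0370 Claims.C0370.WeakMTWGlobalSupport
open scoped Manifold ContDiff Topology
open Set Filter Manifold Bundle

namespace Claimed.Agent.R213

noncomputable section

variable {n : ℕ} {M : Type*} [MetricSpace M] [ChartedSpace (WeakMTW.Model n) M]
  [IsManifold (WeakMTW.model n) ∞ M]
  [RiemannianBundle (fun x : M => TangentSpace (WeakMTW.model n) x)]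
  [CompactSpace M]

variable {NF : ∀ x : M, TangentSpace (WeakMTW.model n) x → Prop}
  {H : ∀ x : M, TangentSpace (WeakMTW.model n) x → TangentSpace (WeakMTW.model n) x → ℝ}

omit [CompactSpace M] [IsManifold (WeakMTW.model n) ∞ M]
  [RiemannianBundle (fun x : M => TangentSpace (WeakMTW.model n) x)] in
/-- scalar multiples of equal points of the tangent bundle are equal. -/
theorem so_mk_smul_congr {x₁ x₂ : M} {p₁ : TangentSpace (WeakMTW.model n) x₁}
    {p₂ : TangentSpace (WeakMTW.model n) x₂} (s : ℝ) (h : mk x₁ p₁ = mk x₂ p₂) :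
    mk x₁ (s • p₁) = mk x₂ (s • p₂) := by
  have h1 : x₁ = x₂ := congrArg (fun q => q.1) h
  subst h1
  have h2 : p₁ = p₂ := by simpa [mk] using h
  rw [h2]

omit [CompactSpace M] in
/-- subsequences of convergent representations. -/
theorem so_convRepr_comp {P : Pot M} {x : ℕ → M} {xl : M}
    {lam : ℕ → Fin (n + 1) → ℝ} {laml : Fin (n + 1) → ℝ}
    {w : ∀ k, Fin (n + 1) → TangentSpace (WeakMTW.model n) (x k)}
    {wl : Fin (n + 1) → TangentSpace (WeakMTW.model n) xl}
    (h : ConvRepr P x xl lam laml w wl) {φ : ℕ → ℕ} (hφ : StrictMono φ) :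
    ConvRepr P (fun k => x (φ k)) xl (fun k => lam (φ k)) laml (fun k => w (φ k)) wl where
  hx := h.hx.comp hφ.tendsto_atTop
  lam_nonneg := fun k i => h.lam_nonneg (φ k) i
  lam_sum := fun k => h.lam_sum (φ k)
  w_mem := fun k i => h.w_mem (φ k) i
  lam_tendsto := fun i => (h.lam_tendsto i).comp hφ.tendsto_atTop
  w_tendsto := fun i => (h.w_tendsto i).comp hφ.tendsto_atTop

omit [CompactSpace M] in
/-- The core of the open-closed argument, after all extractions. -/
theorem so_core (hS : Soft NF H) (hL : StmtReprLim n M) (hF4 : StmtF4 n M)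
    (hN : StmtNFK NF) (hLS : StmtLemmaS H) (hP : StmtPersist (n := n) (M := M))
    (P : Pot M) (S : ℝ) (h0 : 0 ≤ S) (h1 : S < 1) (hG : P.Good n S)
    (s : ℕ → ℝ) (hs : Tendsto s atTop (𝓝 S)) (hs0 : ∀ k, 0 ≤ s k)
    (x : ℕ → M) (xl : M) (lam : ℕ → Fin (n + 1) → ℝ) (laml : Fin (n + 1) → ℝ)
    (w : ∀ k, Fin (n + 1) → TangentSpace (WeakMTW.model n) (x k))
    (wl : Fin (n + 1) → TangentSpace (WeakMTW.model n) xl)
    (hC : ConvRepr P x xl lam laml w wl)
    (x' : ℕ → M) (xl' : M) (lam' : ℕ → Fin (n + 1) → ℝ) (laml' : Fin (n + 1) → ℝ)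
    (w' : ∀ k, Fin (n + 1) → TangentSpace (WeakMTW.model n) (x' k))
    (wl' : Fin (n + 1) → TangentSpace (WeakMTW.model n) xl')
    (hC' : ConvRepr P x' xl' lam' laml' w' wl')
    (hmin : ∀ k x'', s k * P.phi (x' k) +
        cst (x' k) (WeakMTW.exp (x k) (s k • ∑ i, lam k i • w k i)) ≤
      s k * P.phi x'' + cst x'' (WeakMTW.exp (x k) (s k • ∑ i, lam k i • w k i)))
    (hv : ∀ k, s k • ∑ i, lam' k i • w' k i ∈
      Vmin (x' k) (WeakMTW.exp (x k) (s k • ∑ i, lam k i • w k i))) :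
    ∃ k, s k • ∑ i, lam k i • w k i ∈ Ibar (x k) ∧
      ∀ x'' : M, s k * P.phi (x k) +
          cst (x k) (WeakMTW.exp (x k) (s k • ∑ i, lam k i • w k i)) ≤
        s k * P.phi x'' + cst x'' (WeakMTW.exp (x k) (s k • ∑ i, lam k i • w k i)) := by
  obtain ⟨-, -, -, hpK, hlim⟩ := hL P x xl lam laml w wl hC
  obtain ⟨-, -, -, hpK', hlim'⟩ := hL P x' xl' lam' laml' w' wl' hC'
  have hu := hlim s S hs
  have hu' := hlim' s S hs
  -- the two limits have the same end point
  have hy : WeakMTW.exp xl (S • ∑ i, laml i • wl i) =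
      WeakMTW.exp xl' (S • ∑ i, laml' i • wl' i) := by
    have e1 := (hS.cont_exp.tendsto _).comp hu
    have e2 := (hS.cont_exp.tendsto _).comp hu'
    have e3 : (fun k => WeakMTW.exp (x' k) (s k • ∑ i, lam' k i • w' k i)) =
        fun k => WeakMTW.exp (x k) (s k • ∑ i, lam k i • w k i) := by
      funext k
      exact (hv k).1
    have e2' : Tendsto (fun k => WeakMTW.exp (x k) (s k • ∑ i, lam k i • w k i)) atTop
        (𝓝 (WeakMTW.exp xl' (S • ∑ i, laml' i • wl' i))) := by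
      rw [← e3]
      exact e2
    exact tendsto_nhds_unique e1 e2'
  by_cases hAB : mk xl' (S • ∑ i, laml' i • wl' i) = mk xl (S • ∑ i, laml i • wl i)
  · -- Case A
    have hxx : xl' = xl := congrArg (fun q => q.1) hAB
    obtain ⟨W, U, U₀, V, N, C, r, hB⟩ := hS.branch xl _ (hN P S h0 h1 hG xl _ hpK)
    obtain ⟨c₀, r₀, hc₀, hr₀, hLem⟩ :=
      hLS P S h0 h1 hG x xl lam laml w wl s hC hs hs0 W U U₀ V N C r hB
    have hN1 : ∀ᶠ k in atTop, mk (x k) (s k • ∑ i, lam k i • w k i) ∈ N := hu hB.hN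
    have hN2 : ∀ᶠ k in atTop, mk (x' k) (s k • ∑ i, lam' k i • w' k i) ∈ N := by
      rw [hAB] at hu'
      exact hu' hB.hN
    have hd : ∀ᶠ k in atTop, dist (x' k) (x k) < r₀ := by
      have h1 : Tendsto (fun k => dist (x' k) (x k)) atTop (𝓝 (dist xl' xl)) :=
        hC'.hx.dist hC.hx
      rw [hxx, dist_self] at h1
      exact h1.eventually (gt_mem_nhds hr₀)
    obtain ⟨k, hk, hk1, hk2, hkd⟩ := (hLem.and (hN1.and (hN2.and hd))).exists
    refine ⟨k, ?_⟩
    set u := s k • ∑ i, lam k i • w k i with hu_def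
    set v := s k • ∑ i, lam' k i • w' k i with hv_def
    set y := WeakMTW.exp (x k) u with hy_def
    have hW1 : W (x k) y = u := (hB.W_exp _ hk1).2.2
    have hW2 : W (x' k) y = v := by
      have := (hB.W_exp _ hk2).2.2
      have e : WeakMTW.exp (x' k) v = y := (hv k).1
      simp only at this
      rw [e] at this
      exact this
    have hkey := hk (x' k) hkd
    rw [hW1, hW2] at hkey
    have hvn : ‖v‖ = dist (x' k) y := (hv k).2
    have hm := hmin k (x k)
    have hle : dist (x k) y ≤ ‖u‖ := hS.dist_exp_le (x k) u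
    have hdn : 0 ≤ dist (x k) y := dist_nonneg
    have hsq : dist (x k) y ^ 2 ≤ ‖u‖ ^ 2 := pow_le_pow_left₀ hdn hle 2
    have hdd : 0 ≤ dist (x' k) (x k) ^ 2 := sq_nonneg _
    unfold cst at hm
    rw [hvn] at hkey
    have hz : c₀ * dist (x' k) (x k) ^ 2 ≤ 0 := by linarith
    have hz2 : dist (x' k) (x k) ^ 2 = 0 := by
      have : 0 ≤ c₀ * dist (x' k) (x k) ^ 2 := mul_nonneg hc₀.le hdd
      have h3 : c₀ * dist (x' k) (x k) ^ 2 = 0 := le_antisymm hz this
      rcases mul_eq_zero.1 h3 with h4 | h4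
      · exact absurd h4 hc₀.ne'
      · exact h4
    have hxk : x' k = x k := by
      have : dist (x' k) (x k) = 0 := by simpa using hz2
      exact dist_eq_zero.1 this
    constructor
    · -- `u ∈ Ibar`
      have h5 : ‖u‖ ^ 2 ≤ dist (x k) y ^ 2 := by
        rw [hz2] at hkey
        linarith
      have h6 : ‖u‖ ≤ dist (x k) y := by
        exact (pow_le_pow_iff_left₀ (norm_nonneg _) hdn (by norm_num)).1 h5
      exact le_antisymm hle h6
    · intro x''
      have := hmin k x''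
      rw [hxk] at this
      exact this
  · -- Case B
    exfalso
    have hSpos : 0 < S := by
      rcases h0.eq_or_lt with h | h
      · exfalso
        apply hAB
        subst h
        simp only [zero_smul] at hy ⊢
        rw [hS.exp_zero, hS.exp_zero] at hy
        subst hy
        rfl
      · exact h
    have := hS.t2
    obtain ⟨O', O, hO', hO, hm', hm, hdisj⟩ := t2_separation hAB
    have e1 := hP P S hSpos h1 hG xl _ hpK O (hO.mem_nhds hm)
    have e2 := hP P S hSpos h1 hG xl' _ hpK' O' (hO'.mem_nhds hm')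
    have e3 : ∀ᶠ t in 𝓝[<] S, 0 < t :=
      (eventually_gt_nhds hSpos).filter_mono nhdsWithin_le_nhds
    have e4 : ∀ᶠ t in 𝓝[<] S, t < S := eventually_mem_nhdsWithin
    obtain ⟨t, ⟨x₁, p₁, hp₁, hO₁, hy₁⟩, ⟨x₂, p₂, hp₂, hO₂, hy₂⟩, ht0, htS⟩ :=
      (e1.and (e2.and (e3.and e4))).exists
    have hcross := hF4 P S t hG ht0 htS x₁ x₂ p₁ p₂ hp₁ hp₂ (by rw [hy₁, hy₂, hy])
    have := so_mk_smul_congr t hcross
    rw [this] at hO₁
    exact (Set.disjoint_left.1 hdisj hO₂) hO₁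

omit [CompactSpace M] in
/-- **Openness of `Good` to the right.** -/
theorem stmtOpen (hS : Soft NF H) (hE : StmtExtract n M) (hL : StmtReprLim n M)
    (hF3 : StmtF3 n M) (hF4 : StmtF4 n M) (hN : StmtNFK NF) (hLS : StmtLemmaS H)
    (hP : StmtPersist (n := n) (M := M)) : StmtOpen n M := by
  intro P S h0 h1 hG
  by_contra hcon
  have hfr : ∃ᶠ t in 𝓝[>] S, S < t ∧ ¬ P.Good n t := by
    have h2 : ∃ᶠ t in 𝓝[>] S, ¬ P.Good n t := Filter.not_eventually.1 hcon
    have h3 : ∀ᶠ t in 𝓝[>] S, S < t := eventually_mem_nhdsWithin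
    exact (h2.and_eventually h3).mono fun t ht => ⟨ht.2, ht.1⟩
  obtain ⟨s, hs, hbad⟩ := exists_seq_forall_of_frequently hfr
  have hsS : Tendsto s atTop (𝓝 S) := hs.mono_right nhdsWithin_le_nhds
  have hs0 : ∀ k, 0 ≤ s k := fun k => h0.trans (hbad k).1.le
  have hb : ∀ k, ∃ (x : M) (p : TangentSpace (WeakMTW.model n) x), p ∈ P.K x ∧
      ¬ (s k • p ∈ Ibar x ∧
        ∀ x' : M, s k * P.phi x + cst x (WeakMTW.exp x (s k • p)) ≤
          s k * P.phi x' + cst x' (WeakMTW.exp x (s k • p))) := by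
    intro k
    have := (hbad k).2
    unfold Pot.Good at this
    push Not at this
    obtain ⟨x, p, hp, hh⟩ := this
    refine ⟨x, p, hp, ?_⟩
    rintro ⟨ha, hb⟩
    obtain ⟨x', hx'⟩ := hh ha
    exact absurd (hb x') (not_le.2 hx')
  choose x p hpK hbad' using hb
  have hf : ∀ k, ∃ (x' : M) (p' : TangentSpace (WeakMTW.model n) x'), p' ∈ P.K x' ∧
      (∀ x'' : M, s k * P.phi x' + cst x' (WeakMTW.exp (x k) (s k • p k)) ≤
        s k * P.phi x'' + cst x'' (WeakMTW.exp (x k) (s k • p k))) ∧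
      s k • p' ∈ Vmin x' (WeakMTW.exp (x k) (s k • p k)) := by
    intro k
    obtain ⟨x', hx', hv⟩ := hF3 P (s k) (WeakMTW.exp (x k) (s k • p k)) (hs0 k)
    obtain ⟨v, hvm⟩ := hS.hopf_rinow x' (WeakMTW.exp (x k) (s k • p k))
    obtain ⟨p', hp', rfl⟩ := hv v hvm
    exact ⟨x', p', hp', hx', hvm⟩
  choose x' p' hpK' hmin hvm using hf
  obtain ⟨φ₁, xl, lam, laml, w, wl, hφ₁, hC₁, hp₁⟩ := hE P x p hpK
  obtain ⟨φ₂, xl', lam', laml', w', wl', hφ₂, hC₂, hp₂⟩ :=
    hE P (fun k => x' (φ₁ k)) (fun k => p' (φ₁ k)) (fun k => hpK' (φ₁ k))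
  have hC₁' := so_convRepr_comp hC₁ hφ₂
  have hss : Tendsto (fun k => s (φ₁ (φ₂ k))) atTop (𝓝 S) :=
    hsS.comp (hφ₁.tendsto_atTop.comp hφ₂.tendsto_atTop)
  obtain ⟨k, hk⟩ := so_core hS hL hF4 hN hLS hP P S h0 h1 hG
    (fun k => s (φ₁ (φ₂ k))) hss (fun k => hs0 _)
    (fun k => x (φ₁ (φ₂ k))) xl (fun k => lam (φ₂ k)) laml (fun k => w (φ₂ k)) wl hC₁'
    (fun k => x' (φ₁ (φ₂ k))) xl' lam' laml' w' wl' hC₂
    (fun k x'' => by
      have := hmin (φ₁ (φ₂ k)) x''
      rw [hp₁ (φ₂ k)] at this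
      exact this)
    (fun k => by
      have := hvm (φ₁ (φ₂ k))
      rw [hp₁ (φ₂ k)] at this
      have h2 : p' (φ₁ (φ₂ k)) = ∑ i, lam' k i • w' k i := hp₂ k
      rw [h2] at this
      exact this)
  apply hbad' (φ₁ (φ₂ k))
  rw [hp₁ (φ₂ k)]
  exact hk

end

end Claimed.Agent.R213
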