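import Claimed.Agent.R213.SoftDefs

/-!
# Row 213, SOFT layer: persistence of strict local minima for `s < S` (`StmtPersist`).
-/

set_option autoImplicit false
open Claims Claims.C0370 Claims.C0370.WeakMTWGlobalSupport
open scoped Manifold ContDiff Topology
open Set Filter Manifold Bundle

namespace Claimed.Agent.R213

noncomputable section

variable {n : ℕ} {M : Type*} [MetricSpace M] [ChartedSpace (WeakMTW.Model n) M]
  [IsManifold (WeakMTW.model n) ∞ M]
  [RiemannianBundle (fun x : M => TangentSpace (WeakMTW.model n) x)]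
variable {NF : ∀ x : M, TangentSpace (WeakMTW.model n) x → Prop}
  {H : ∀ x : M, TangentSpace (WeakMTW.model n) x → TangentSpace (WeakMTW.model n) x → ℝ}

omit [ChartedSpace (WeakMTW.Model n) M] [IsManifold (WeakMTW.model n) ∞ M]
  [RiemannianBundle (fun x : M => TangentSpace (WeakMTW.model n) x)] in
theorem softPersist_continuous_phi (P : Pot M) : Continuous P.phi := by
  unfold Pot.phi Pot.m₁ Pot.m₂
  fun_prop

/-- the branch velocity as a function of the base point only is continuous. -/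
theorem softPersist_cont {x : M} {u : TangentSpace (WeakMTW.model n) x}
    {W : ∀ x' : M, M → TangentSpace (WeakMTW.model n) x'} {U U₀ V : Set M}
    {N : Set (TangentBundle (WeakMTW.model n) M)} {C r : ℝ}
    (hB : IsBranch H x u W U U₀ V N C r) {y : M} (hy : y ∈ V) {x' : M} (hx' : x' ∈ U) :
    ContinuousAt (fun q : M => mk q (W q y)) x' := by
  have h1 := hB.cont x' hx' y hy
  have h2 : ContinuousAt (fun q : M => (q, y)) x' :=
    (continuous_id.prodMk continuous_const).continuousAt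
  exact ContinuousAt.comp (f := fun q : M => (q, y))
    (g := fun q : M × M => mk q.1 (W q.1 q.2)) h1 h2

/-- local upper bound for `H` at branch velocities near a nonfocal velocity. -/
theorem softPersist_H_bound (hS : Soft NF H) {x : M} {u : TangentSpace (WeakMTW.model n) x}
    (hNF : NF x u)
    {W : ∀ x' : M, M → TangentSpace (WeakMTW.model n) x'} {U U₀ V : Set M}
    {N : Set (TangentBundle (WeakMTW.model n) M)} {C r : ℝ}
    (hB : IsBranch H x u W U U₀ V N C r) :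
    ∃ ρ₂ : ℝ, 0 < ρ₂ ∧ ∃ CH : ℝ, ∀ x' : M, dist x' x < ρ₂ →
      ∀ e : TangentSpace (WeakMTW.model n) x', ‖e‖ ≤ 1 →
        H x' (W x' (WeakMTW.exp x u)) e ≤ CH := by
  classical
  set y := WeakMTW.exp x u with hy
  have hWx : W x y = u := (hB.W_exp (mk x u) (mem_of_mem_nhds hB.hN)).2.2
  by_contra hcon
  push Not at hcon
  have hk : ∀ k : ℕ, ∃ x' : M, dist x' x < 1 / ((k : ℝ) + 1) ∧
      ∃ e : TangentSpace (WeakMTW.model n) x', ‖e‖ ≤ 1 ∧ (k : ℝ) < H x' (W x' y) e :=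
    fun k => hcon (1 / ((k : ℝ) + 1)) (by positivity) k
  choose xs hxs es hes hHs using hk
  have hxt : Tendsto xs atTop (𝓝 x) := by
    rw [tendsto_iff_dist_tendsto_zero]
    exact squeeze_zero (fun _ => dist_nonneg) (fun k => (hxs k).le)
      tendsto_one_div_add_atTop_nhds_zero_nat
  obtain ⟨el, φ, hφ, hel⟩ := hS.cpt xs x es 1 hxt hes
  have hu : Tendsto (fun k => mk (xs (φ k)) (W (xs (φ k)) y)) atTop (𝓝 (mk x u)) := by
    have h := (softPersist_cont hB hB.hy (hB.hUU hB.hx)).tendsto.comp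
      (hxt.comp hφ.tendsto_atTop)
    rw [hWx] at h
    exact h
  have hlim := hS.cont_H (fun k => xs (φ k)) x (fun k => W (xs (φ k)) y)
    (fun k => es (φ k)) u el hNF hu hel
  have hinf : Tendsto (fun k => H (xs (φ k)) (W (xs (φ k)) y) (es (φ k))) atTop atTop :=
    tendsto_atTop_mono
      (fun k => le_trans (Nat.cast_le.2 (hφ.id_le k)) (hHs (φ k)).le)
      tendsto_natCast_atTop_atTop
  exact not_tendsto_nhds_of_tendsto_atTop hinf _ hlim

theorem stmtPersist [CompactSpace M] (hS : Soft NF H) (hR : StmtRepr n M) (hN : StmtNFK NF)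
    (hLS : StmtLemmaS H) (hF2 : StmtF2 n M) : StmtPersist (n := n) (M := M) := by
  classical
  intro P S hS0 hS1 hG x p hp O hO
  obtain ⟨lam, w, hlam0, hlam1, hw, hpw⟩ := hR P x p hp
  have hNF : NF x (S • p) := hN P S hS0.le hS1 hG x p hp
  obtain ⟨W, U, U₀, V, N, C, r, hB⟩ := hS.branch x (S • p) hNF
  obtain ⟨ρ₂, hρ₂, CH, hCH⟩ := softPersist_H_bound hS hNF hB
  set y := WeakMTW.exp x (S • p) with hy
  have hWx : W x y = S • p := (hB.W_exp (mk x (S • p)) (mem_of_mem_nhds hB.hN)).2.2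
  -- Lemma S with constant sequences
  have hCR : ConvRepr P (fun _ : ℕ => x) x (fun _ => lam) lam (fun _ => w) w :=
    ⟨tendsto_const_nhds, fun _ i => hlam0 i, fun _ => hlam1, fun _ i => hw i,
      fun _ => tendsto_const_nhds, fun _ => tendsto_const_nhds⟩
  have hB' : IsBranch H x (S • ∑ i, lam i • w i) W U U₀ V N C r := by
    rw [← hpw]; exact hB
  obtain ⟨c₀, r₀, hc₀, hr₀, hev⟩ := hLS P S hS0.le hS1 hG (fun _ => x) x (fun _ => lam) lam
    (fun _ => w) w (fun _ => S) hCR tendsto_const_nhds (fun _ => hS0.le) W U U₀ V N C r hB'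
  obtain ⟨_, hA⟩ := hev.exists
  simp only [← hpw, ← hy] at hA
  -- continuity
  have hcont : ∀ x' ∈ U, ContinuousAt (fun q : M => mk q (W q y)) x' :=
    fun x' hx' => softPersist_cont hB hB.hy hx'
  have hGc : ∀ x' ∈ U, ContinuousAt (fun q : M => ‖W q y‖ ^ 2 / 2) x' := by
    intro x' hx'
    have h1 : ContinuousAt (fun q : M => ‖W q y‖) x' :=
      ContinuousAt.comp (f := fun q : M => mk q (W q y))
        (g := fun q : TangentBundle (WeakMTW.model n) M => ‖q.2‖)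
        hS.cont_norm.continuousAt (hcont x' hx')
    exact (h1.pow 2).div_const 2
  have hphic := softPersist_continuous_phi P
  obtain ⟨Φ, hΦ⟩ := isCompact_univ.exists_bound_of_continuousOn hphic.continuousOn
  have hΦ' : ∀ x' : M, |P.phi x'| ≤ Φ := fun x' => by
    simpa [Real.norm_eq_abs] using hΦ x' (mem_univ _)
  have hΦ0 : 0 ≤ Φ := le_trans (abs_nonneg _) (hΦ' x)
  -- the radius
  have hnb : U₀ ∩ (fun q : M => mk q (W q y)) ⁻¹' O ∈ 𝓝 x := by
    refine inter_mem (hB.hU₀.mem_nhds hB.hx) ?_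
    refine (hcont x (hB.hUU hB.hx)).preimage_mem_nhds ?_
    simpa only [hWx] using hO
  obtain ⟨ε, hε, hεs⟩ := Metric.mem_nhds_iff.1 hnb
  set ρ := min (min (ε / 2) (r₀ / 2)) (ρ₂ / 2) with hρdef
  have hρ : 0 < ρ := by
    simp only [hρdef, lt_min_iff]
    exact ⟨⟨by linarith, by linarith⟩, by linarith⟩
  have hρε : ρ < ε := by
    have : ρ ≤ ε / 2 := le_trans (min_le_left _ _) (min_le_left _ _)
    linarith
  have hρr : ρ < r₀ := by
    have : ρ ≤ r₀ / 2 := le_trans (min_le_left _ _) (min_le_right _ _)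
    linarith
  have hρρ : ρ < ρ₂ := by
    have : ρ ≤ ρ₂ / 2 := min_le_right _ _
    linarith
  have hball : ∀ x' ∈ Metric.closedBall x ρ, x' ∈ U₀ ∧ mk x' (W x' y) ∈ O := by
    intro x' hx'
    have : x' ∈ Metric.ball x ε := lt_of_le_of_lt (Metric.mem_closedBall.1 hx') hρε
    exact hεs this
  -- the range of `s`
  set δ := min S (c₀ * ρ ^ 2 / (2 * (Φ + 1))) with hδdef
  have hδ : 0 < δ := by
    simp only [hδdef, lt_min_iff]
    exact ⟨hS0, by positivity⟩
  filter_upwards [Ioo_mem_nhdsLT (show S - δ < S by linarith)] with s hs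
  have hs0 : 0 ≤ s := by
    have : δ ≤ S := min_le_left _ _
    linarith [hs.1]
  have hsδ : 2 * (S - s) * (Φ + 1) < c₀ * ρ ^ 2 := by
    have h1 : δ ≤ c₀ * ρ ^ 2 / (2 * (Φ + 1)) := min_le_right _ _
    have h2 : S - s < c₀ * ρ ^ 2 / (2 * (Φ + 1)) := by linarith [hs.1]
    rw [lt_div_iff₀ (by positivity)] at h2
    linarith
  -- the minimiser
  have hcomp : IsCompact (Metric.closedBall x ρ) := Metric.isClosed_closedBall.isCompact
  have hfc : ContinuousOn (fun q : M => s * P.phi q + ‖W q y‖ ^ 2 / 2)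
      (Metric.closedBall x ρ) := by
    intro q hq
    exact ((continuousAt_const.mul hphic.continuousAt).add
      (hGc q (hB.hUU (hball q hq).1))).continuousWithinAt
  obtain ⟨x₁, hx₁, hmin⟩ := hcomp.exists_isMinOn ⟨x, Metric.mem_closedBall_self hρ.le⟩ hfc
  have hmin' : ∀ q ∈ Metric.closedBall x ρ,
      s * P.phi x₁ + ‖W x₁ y‖ ^ 2 / 2 ≤ s * P.phi q + ‖W q y‖ ^ 2 / 2 := fun q hq => hmin hq
  have hd : dist x₁ x < ρ := by
    have h1 := hA x₁ (lt_of_le_of_lt (Metric.mem_closedBall.1 hx₁) hρr)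
    have h2 := hmin' x (Metric.mem_closedBall_self hρ.le)
    have h3 : (S - s) * (P.phi x₁ - P.phi x) ≤ 2 * (S - s) * (Φ + 1) := by
      have h4 : P.phi x₁ - P.phi x ≤ 2 * (Φ + 1) := by
        have := abs_le.1 (hΦ' x₁)
        have := abs_le.1 (hΦ' x)
        linarith
      have h5 : 0 ≤ S - s := by linarith [hs.2]
      nlinarith
    have h6 : c₀ * dist x₁ x ^ 2 < c₀ * ρ ^ 2 := by nlinarith
    have h7 : dist x₁ x ^ 2 < ρ ^ 2 := lt_of_mul_lt_mul_left h6 hc₀.le
    exact lt_of_pow_lt_pow_left₀ 2 hρ.le h7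
  have hx₁U₀ : x₁ ∈ U₀ := (hball x₁ hx₁).1
  have hx₁U : x₁ ∈ U := hB.hUU hx₁U₀
  have hloc : ∀ᶠ q in 𝓝 x₁, s * P.phi x₁ + ‖W x₁ y‖ ^ 2 / 2 ≤
      s * P.phi q + ‖W q y‖ ^ 2 / 2 := by
    filter_upwards [Metric.isOpen_ball.mem_nhds (Metric.mem_ball.2 hd)] with q hq
    exact hmin' q (Metric.ball_subset_closedBall hq)
  -- quadratic upper bound of `H`
  have hHq : ∀ e : TangentSpace (WeakMTW.model n) x₁,
      H x₁ (W x₁ y) e ≤ CH * ‖e‖ ^ 2 := by
    intro e
    by_cases he : e = 0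
    · have := hB.hom x₁ hx₁U y hB.hy (0 : TangentSpace (WeakMTW.model n) x₁) 0
      simp only [smul_zero] at this
      rw [he, this]
      simp
    · have hne : ‖e‖ ≠ 0 := norm_ne_zero_iff.2 he
      have h1 := hB.hom x₁ hx₁U y hB.hy (‖e‖⁻¹ • e) ‖e‖
      rw [smul_smul, mul_inv_cancel₀ hne, one_smul] at h1
      have h2 : ‖‖e‖⁻¹ • e‖ ≤ 1 := by
        rw [norm_smul, norm_inv, norm_norm, inv_mul_cancel₀ hne]
      have h3 := hCH x₁ (lt_trans hd hρρ) (‖e‖⁻¹ • e) h2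
      rw [h1]
      nlinarith [sq_nonneg ‖e‖]
  -- first order condition
  have hup : ∀ e : TangentSpace (WeakMTW.model n) x₁, ‖e‖ < min r 1 →
      ‖W (WeakMTW.exp x₁ e) y‖ ^ 2 / 2 ≤ ‖W x₁ y‖ ^ 2 / 2 + inner ℝ (-W x₁ y) e +
        (CH / 2 + |C|) * ‖e‖ ^ 2 := by
    intro e he
    have her : ‖e‖ < r := lt_of_lt_of_le he (min_le_left _ _)
    have he1 : ‖e‖ < 1 := lt_of_lt_of_le he (min_le_right _ _)
    have h1 := (abs_le.1 (hB.taylor x₁ hx₁U₀ y hB.hy e her).2).2
    have h2 := hHq e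
    have h3 : C * ‖e‖ ^ 3 ≤ |C| * ‖e‖ ^ 2 := by
      have h4 : ‖e‖ ^ 3 ≤ ‖e‖ ^ 2 := by
        have := norm_nonneg e
        nlinarith [sq_nonneg ‖e‖]
      calc C * ‖e‖ ^ 3 ≤ |C| * ‖e‖ ^ 3 :=
            mul_le_mul_of_nonneg_right (le_abs_self C) (by positivity)
        _ ≤ |C| * ‖e‖ ^ 2 := mul_le_mul_of_nonneg_left h4 (abs_nonneg C)
    rw [inner_neg_left]
    linarith
  obtain ⟨p₁, hp₁, hp₁e⟩ := hF2 P x₁ s (-W x₁ y) (fun q : M => ‖W q y‖ ^ 2 / 2)
    (CH / 2 + |C|) (min r 1) hs0 (lt_min hB.hr one_pos) hup hloc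
  rw [neg_neg] at hp₁e
  refine ⟨x₁, p₁, hp₁, ?_, ?_⟩
  · rw [← hp₁e]; exact (hball x₁ hx₁).2
  · rw [← hp₁e]; exact hB.exp_W x₁ hx₁U y hB.hy

end

end Claimed.Agent.R213
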