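import Claimed.Agent.R213.SoftA
import Claimed.Agent.R213.SoftB
import Claimed.Agent.R213.SoftF2
import Claimed.Agent.R213.SoftF4
import Claimed.Agent.R213.SoftNFK
import Claimed.Agent.R213.SoftLemmaS
import Claimed.Agent.R213.SoftPersist
import Claimed.Agent.R213.SoftOpen
import Claimed.Agent.R213.SoftMain
import Claimed.Agent.R213.SoftSemi

/-!
# Row 213, SOFT layer: assembly

`SoftCore NF H → MainConvexity`.  Everything that remains for S0438 is to construct `NF`, `H`
and a proof of `SoftCore NF H` from the hypotheses of the statement.
-/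

set_option autoImplicit false
open Claims Claims.C0370 Claims.C0370.WeakMTWGlobalSupport
open scoped Manifold ContDiff Topology
open Set Filter Manifold Bundle

namespace Claimed.Agent.R213

variable {n : ℕ} {M : Type*} [MetricSpace M] [ChartedSpace (WeakMTW.Model n) M]
  [IsManifold (WeakMTW.model n) ∞ M]
  [RiemannianBundle (fun x : M => TangentSpace (WeakMTW.model n) x)]

variable {NF : ∀ x : M, TangentSpace (WeakMTW.model n) x → Prop}
  {H : ∀ x : M, TangentSpace (WeakMTW.model n) x → TangentSpace (WeakMTW.model n) x → ℝ}

/-- The SOFT layer: the interface `Soft` implies convexity of all injectivity domains. -/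
theorem mainConvexity_of_soft [CompactSpace M] (hS : Soft NF H) :
    WeakMTW.MainConvexity (n := n) (M := M) := by
  have hSup : StmtSupport n M := stmtSupport
  have hHC : StmtHonClosed n M := stmtHonClosed hS
  have hR : StmtRepr n M := stmtRepr
  have hE : StmtExtract n M := stmtExtract hS hR hSup
  have hL : StmtReprLim n M := stmtReprLim hS hHC
  have hF2 : StmtF2 n M := stmtF2 hS hHC hE hL
  have hF3 : StmtF3 n M := stmtF3 hS hF2
  have hF4 : StmtF4 n M := stmtF4 hS
  have hC : StmtClosed n M := stmtClosed hS
  have hN : StmtNFK NF := stmtNFK hS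
  have hMg : StmtMargin H := stmtMargin hS hN
  have hLS : StmtLemmaS H := stmtLemmaS hS hSup hL hMg hN
  have hP : StmtPersist (n := n) (M := M) := stmtPersist hS hR hN hLS hF2
  have hO : StmtOpen n M := stmtOpen hS hE hL hF3 hF4 hN hLS hP
  exact mainConvexity_of_allGood hS (stmtAllGood hS hC hO)

/-- The same from `SoftCore` (semiconcavity is derived). -/
theorem mainConvexity_of_core [CompactSpace M] (h : SoftCore NF H) :
    WeakMTW.MainConvexity (n := n) (M := M) :=
  mainConvexity_of_soft (soft_of_core h)

end Claimed.Agent.R213
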