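import Claimed.Agent.R213.Basic

/-!
# Row 213, SOFT layer: definitions and the statements of the steps

`phi = max` of two mountains, `Hon x` = honest velocities, `K x = conv (Hon x)`, `Good s`.
Every step is a `Prop`-valued definition `StmtXxx`; the files `SoftXxx.lean` prove
`Soft NF H → (earlier statements) → StmtXxx`.  See msgs 8481-8486 for the mathematics.
-/

set_option autoImplicit false
open Claims Claims.C0370 Claims.C0370.WeakMTWGlobalSupport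
open scoped Manifold ContDiff Topology
open Set Filter Manifold Bundle

namespace Claimed.Agent.R213

noncomputable section

/-- two centres and two heights. -/
structure Pot (M : Type*) where
  y₁ : M
  y₂ : M
  h₁ : ℝ
  h₂ : ℝ

variable {n : ℕ} {M : Type*} [MetricSpace M] [ChartedSpace (WeakMTW.Model n) M]
  [IsManifold (WeakMTW.model n) ∞ M]
  [RiemannianBundle (fun x : M => TangentSpace (WeakMTW.model n) x)]

omit [ChartedSpace (WeakMTW.Model n) M] [IsManifold (WeakMTW.model n) ∞ M]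
  [RiemannianBundle (fun x : M => TangentSpace (WeakMTW.model n) x)] in
/-- first mountain -/
def Pot.m₁ (P : Pot M) (x : M) : ℝ := P.h₁ - dist x P.y₁ ^ 2 / 2

omit [ChartedSpace (WeakMTW.Model n) M] [IsManifold (WeakMTW.model n) ∞ M]
  [RiemannianBundle (fun x : M => TangentSpace (WeakMTW.model n) x)] in
/-- second mountain -/
def Pot.m₂ (P : Pot M) (x : M) : ℝ := P.h₂ - dist x P.y₂ ^ 2 / 2

omit [ChartedSpace (WeakMTW.Model n) M] [IsManifold (WeakMTW.model n) ∞ M]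
  [RiemannianBundle (fun x : M => TangentSpace (WeakMTW.model n) x)] in
/-- the potential -/
def Pot.phi (P : Pot M) (x : M) : ℝ := max (P.m₁ x) (P.m₂ x)

/-- honest velocities: minimising velocities to the centres of the active mountains. -/
def Pot.Hon (P : Pot M) (x : M) : Set (TangentSpace (WeakMTW.model n) x) :=
  {v | (P.m₁ x = P.phi x ∧ v ∈ Vmin x P.y₁) ∨ (P.m₂ x = P.phi x ∧ v ∈ Vmin x P.y₂)}

/-- `K x = conv (Hon x)` (it is the subdifferential of `phi` at `x`). -/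
def Pot.K (P : Pot M) (x : M) : Set (TangentSpace (WeakMTW.model n) x) :=
  convexHull ℝ (P.Hon x)

/-- `Good s`: every `s p`, `p ∈ K x`, is a minimising velocity and `x` is a global minimiser of
`s phi + c(., exp_x (s p))`. -/
def Pot.Good (n : ℕ) [ChartedSpace (WeakMTW.Model n) M] [IsManifold (WeakMTW.model n) ∞ M]
    [RiemannianBundle (fun x : M => TangentSpace (WeakMTW.model n) x)]
    (P : Pot M) (s : ℝ) : Prop :=
  ∀ (x : M) (p : TangentSpace (WeakMTW.model n) x), p ∈ P.K x →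
    s • p ∈ Ibar x ∧
    ∀ x' : M, s * P.phi x + cst x (WeakMTW.exp x (s • p)) ≤
      s * P.phi x' + cst x' (WeakMTW.exp x (s • p))

/-- A convergent sequence of Caratheodory representations. -/
structure ConvRepr (P : Pot M) (x : ℕ → M) (xl : M)
    (lam : ℕ → Fin (n + 1) → ℝ) (laml : Fin (n + 1) → ℝ)
    (w : ∀ k, Fin (n + 1) → TangentSpace (WeakMTW.model n) (x k))
    (wl : Fin (n + 1) → TangentSpace (WeakMTW.model n) xl) : Prop where
  hx : Tendsto x atTop (𝓝 xl)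
  lam_nonneg : ∀ k i, 0 ≤ lam k i
  lam_sum : ∀ k, ∑ i, lam k i = 1
  w_mem : ∀ k i, w k i ∈ P.Hon (x k)
  lam_tendsto : ∀ i, Tendsto (fun k => lam k i) atTop (𝓝 (laml i))
  w_tendsto : ∀ i, Tendsto (fun k => mk (x k) (w k i)) atTop (𝓝 (mk xl (wl i)))

variable (n M)

/-- honest support. -/
def StmtSupport : Prop := ∀ (P : Pot M) (x : M) (v : TangentSpace (WeakMTW.model n) x),
  v ∈ P.Hon x → v ∈ Ibar x ∧
    ∀ x' : M, P.phi x + cst x (WeakMTW.exp x v) - cst x' (WeakMTW.exp x v) ≤ P.phi x'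

/-- `Hon` is nonempty and has closed graph in the tangent bundle. -/
def StmtHonClosed : Prop := ∀ (P : Pot M), (∀ x : M, (P.Hon (n := n) x).Nonempty) ∧
  ∀ (x : ℕ → M) (xl : M) (v : ∀ k, TangentSpace (WeakMTW.model n) (x k))
    (vl : TangentSpace (WeakMTW.model n) xl), (∀ k, v k ∈ P.Hon (x k)) →
    Tendsto (fun k => mk (x k) (v k)) atTop (𝓝 (mk xl vl)) → vl ∈ P.Hon xl

/-- Caratheodory with a fixed index set. -/
def StmtRepr : Prop := ∀ (P : Pot M) (x : M) (p : TangentSpace (WeakMTW.model n) x),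
  p ∈ P.K x → ∃ (lam : Fin (n + 1) → ℝ) (w : Fin (n + 1) → TangentSpace (WeakMTW.model n) x),
    (∀ i, 0 ≤ lam i) ∧ ∑ i, lam i = 1 ∧ (∀ i, w i ∈ P.Hon x) ∧ p = ∑ i, lam i • w i

/-- extraction of a convergent sequence of representations. -/
def StmtExtract : Prop := ∀ (P : Pot M) (x : ℕ → M)
  (p : ∀ k, TangentSpace (WeakMTW.model n) (x k)), (∀ k, p k ∈ P.K (x k)) →
  ∃ (φ : ℕ → ℕ) (xl : M) (lam : ℕ → Fin (n + 1) → ℝ) (laml : Fin (n + 1) → ℝ)
    (w : ∀ k, Fin (n + 1) → TangentSpace (WeakMTW.model n) (x (φ k)))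
    (wl : Fin (n + 1) → TangentSpace (WeakMTW.model n) xl),
    StrictMono φ ∧ ConvRepr P (fun k => x (φ k)) xl lam laml w wl ∧
    ∀ k, p (φ k) = ∑ i, lam k i • w k i

/-- limits of representations. -/
def StmtReprLim : Prop := ∀ (P : Pot M) (x : ℕ → M) (xl : M)
  (lam : ℕ → Fin (n + 1) → ℝ) (laml : Fin (n + 1) → ℝ)
  (w : ∀ k, Fin (n + 1) → TangentSpace (WeakMTW.model n) (x k))
  (wl : Fin (n + 1) → TangentSpace (WeakMTW.model n) xl), ConvRepr P x xl lam laml w wl →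
  (∀ i, 0 ≤ laml i) ∧ ∑ i, laml i = 1 ∧ (∀ i, wl i ∈ P.Hon xl) ∧
  (∑ i, laml i • wl i) ∈ P.K xl ∧
  ∀ (s : ℕ → ℝ) (S : ℝ), Tendsto s atTop (𝓝 S) →
    Tendsto (fun k => mk (x k) (s k • ∑ i, lam k i • w k i)) atTop
      (𝓝 (mk xl (S • ∑ i, laml i • wl i)))

/-- (F2) first order condition. -/
def StmtF2 : Prop := ∀ (P : Pot M) (x : M) (s : ℝ) (a : TangentSpace (WeakMTW.model n) x)
  (g : M → ℝ) (C r : ℝ), 0 ≤ s → 0 < r →
  (∀ e : TangentSpace (WeakMTW.model n) x, ‖e‖ < r →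
    g (WeakMTW.exp x e) ≤ g x + inner ℝ a e + C * ‖e‖ ^ 2) →
  (∀ᶠ x' in 𝓝 x, s * P.phi x + g x ≤ s * P.phi x' + g x') →
  ∃ p ∈ P.K x, -a = s • p

/-- (F3) global minimisers. -/
def StmtF3 : Prop := ∀ (P : Pot M) (s : ℝ) (y : M), 0 ≤ s →
  ∃ x' : M, (∀ x'' : M, s * P.phi x' + cst x' y ≤ s * P.phi x'' + cst x'' y) ∧
    ∀ v : TangentSpace (WeakMTW.model n) x', v ∈ Vmin x' y → ∃ p ∈ P.K x', v = s • p

/-- (F4) non-crossing. -/
def StmtF4 : Prop := ∀ (P : Pot M) (S s : ℝ), P.Good n S → 0 < s → s < S →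
  ∀ (x₁ x₂ : M) (p₁ : TangentSpace (WeakMTW.model n) x₁)
    (p₂ : TangentSpace (WeakMTW.model n) x₂), p₁ ∈ P.K x₁ → p₂ ∈ P.K x₂ →
    WeakMTW.exp x₁ (s • p₁) = WeakMTW.exp x₂ (s • p₂) → mk x₁ p₁ = mk x₂ p₂

/-- `Good` is a closed condition. -/
def StmtClosed : Prop := ∀ (P : Pot M), IsClosed {s : ℝ | P.Good n s}

variable {n M}
variable (NF : ∀ x : M, TangentSpace (WeakMTW.model n) x → Prop)
  (H : ∀ x : M, TangentSpace (WeakMTW.model n) x → TangentSpace (WeakMTW.model n) x → ℝ)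

/-- all points of `S K(x)` are nonfocal. -/
def StmtNFK : Prop := ∀ (P : Pot M) (S : ℝ), 0 ≤ S → S < 1 → P.Good n S →
  ∀ (x : M) (p : TangentSpace (WeakMTW.model n) x), p ∈ P.K x → NF x (S • p)

/-- the margin `D ≥ 1 - S/t` on vectors orthogonal to the active face. -/
def StmtMargin : Prop := ∀ (P : Pot M) (S t : ℝ), 0 ≤ S → S < t → t < 1 → P.Good n S →
  ∀ (x : M) (lam : Fin (n + 1) → ℝ) (w : Fin (n + 1) → TangentSpace (WeakMTW.model n) x)
    (e : TangentSpace (WeakMTW.model n) x),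
    (∀ i, 0 ≤ lam i) → ∑ i, lam i = 1 → (∀ i, w i ∈ P.Hon x) →
    (∀ i, lam i ≠ 0 → inner ℝ e (S • w i) = inner ℝ e (S • ∑ j, lam j • w j)) →
    (1 - S / t) * ‖e‖ ^ 2 ≤
      H x (S • ∑ j, lam j • w j) e - S / t * ∑ i, lam i * H x (t • w i) e

/-- Lemma S: uniform strict local minimum. -/
def StmtLemmaS : Prop := ∀ (P : Pot M) (S : ℝ), 0 ≤ S → S < 1 → P.Good n S →
  ∀ (x : ℕ → M) (xl : M) (lam : ℕ → Fin (n + 1) → ℝ) (laml : Fin (n + 1) → ℝ)
    (w : ∀ k, Fin (n + 1) → TangentSpace (WeakMTW.model n) (x k))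
    (wl : Fin (n + 1) → TangentSpace (WeakMTW.model n) xl) (s : ℕ → ℝ),
    ConvRepr P x xl lam laml w wl → Tendsto s atTop (𝓝 S) → (∀ k, 0 ≤ s k) →
  ∀ W U U₀ V N C r, IsBranch H xl (S • ∑ i, laml i • wl i) W U U₀ V N C r →
  ∃ c₀ r₀ : ℝ, 0 < c₀ ∧ 0 < r₀ ∧ ∀ᶠ k in atTop, ∀ x' : M, dist x' (x k) < r₀ →
    s k * P.phi (x k) +
        ‖W (x k) (WeakMTW.exp (x k) (s k • ∑ i, lam k i • w k i))‖ ^ 2 / 2 +
        c₀ * dist x' (x k) ^ 2 ≤
      s k * P.phi x' + ‖W x' (WeakMTW.exp (x k) (s k • ∑ i, lam k i • w k i))‖ ^ 2 / 2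

/-- persistence of the strict local minimum for `s < S` close to `S`. -/
def StmtPersist : Prop := ∀ (P : Pot M) (S : ℝ), 0 < S → S < 1 → P.Good n S →
  ∀ (x : M) (p : TangentSpace (WeakMTW.model n) x), p ∈ P.K x →
  ∀ O ∈ 𝓝 (mk x (S • p)), ∀ᶠ s in 𝓝[<] S,
    ∃ (x₁ : M) (p₁ : TangentSpace (WeakMTW.model n) x₁), p₁ ∈ P.K x₁ ∧
      mk x₁ (s • p₁) ∈ O ∧ WeakMTW.exp x₁ (s • p₁) = WeakMTW.exp x (S • p)

variable (n M)

/-- openness to the right. -/
def StmtOpen : Prop := ∀ (P : Pot M) (S : ℝ), 0 ≤ S → S < 1 → P.Good n S →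
  ∀ᶠ s in 𝓝[>] S, P.Good n s

/-- `Good s` for all `s < 1`. -/
def StmtAllGood : Prop := ∀ (P : Pot M) (s : ℝ), 0 ≤ s → s < 1 → P.Good n s

end

end Claimed.Agent.R213
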